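import Vale.Agent.P273.H778.RecW
import Vale.Agent.P273.H578.Bridge
import Vale.Agent.P273.H803.AsyL
import Vale.Agent.P273.H738.Inst
import Vale.Agent.P273.H214.WCut2
import Vale.Agent.P273.H604.ICut

/-!
# P273, (T2) of ASY0: the literal inputs of the assembly of the b-fields (item (E))

`φ = posE R m`, `σ = shE R m S`; the mark `(k, t)`; `X S e j` (helper973's `Xp`) = coordinate `x`.
-/

noncomputable section

namespace Vale.Agent.P273.H778

open Set Filter H681 H95 H732 H562 H973 H578 H803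
open scoped Topology ContDiff

/-- the point of a mark, as a function on the log chart -/
abbrev PMt (R : H95.Region) (m : ∀ k, Fin (R.n k + 1)) (S : L → Bool) (t : Bool) (k : Fin 7)
    (q : Co R m) : ℂ × ℂ := PX S t (posE R m) (shE R m S) q k

/-- the roots, as a function on the log chart -/
abbrev bM (R : H95.Region) (m : ∀ k, Fin (R.n k + 1)) (q : Co R m) : C6 := (posE R m q).1

/-- the collision function of a mark, finite marks frozen at `p` -/
abbrev gM (O : One) (ξ : Fin 6 → ℝ) (R : H95.Region) (m : ∀ k, Fin (R.n k + 1)) (S : L → Bool)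
    (t : Bool) (p : Co R m) (k : Fin 7) : Co R m → ℝ :=
  gfun (cX S t (posE R m) (shE R m S) p) (pX O ξ S t (posE R m) (shE R m S) p) k

/-- the coordinate `x` of a mark -/
abbrev xM (R : H95.Region) (m : ∀ k, Fin (R.n k + 1)) (S : L → Bool) (t : Bool) (k : Fin 7)
    (q : Co R m) : ℂ := (PMt R m S t k q).1

/-- a mark at which the recursion may be active: finite, off the root discs (`c |d|`), bounded -/
structure ActC (c z : ℝ) (R : H95.Region) (m : ∀ k, Fin (R.n k + 1)) (S : L → Bool) (p : Co R m)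
    (t : Bool) (k : Fin 7) : Prop where
  fin : fin S t (posE R m p) k
  off : ∀ i : Fin 6, c * (1 / 16 * Real.exp (-(p.2.2.1 (H738.kp i)) / 2)) ≤
    ‖xM R m S t k p - bM R m p i‖
  zone : ‖xM R m S t k p‖ ≤ z

/-- the marks of the geometric lemmas: off the discs of radius `|d| / 8`, `|x| ≤ 200` -/
abbrev Act := ActC (1 / 8) 200

/-- the marks where the recursion is not trivial: off the discs of radius `|d| / 6`, `|x| ≤ 150` -/
abbrev Act' := ActC (1 / 6) 150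

/-- near marks (helper578's `Nr` with the radius of the earlier index) -/
abbrev NrM (R : H95.Region) (m : ∀ k, Fin (R.n k + 1)) (S : L → Bool) (p : Co R m)
    (t : Bool) (k l : Fin 7) : Prop :=
  Nr (rad k) (bM R m p) (PMt R m S t k p) (PMt R m S t l p)

/-- **uniform zero discs of the one mark form** (214 T4: `64 ‖x - b_j‖ ^ 2 < hh b j`; 604:
`2 Rr b ^ 2 < ‖x‖ ^ 2`): an input of (T2) -/
def Disc0 (O : One) : Prop := ∀ b ∈ XX, ∀ ξ, IsCl ξ → ∀ x y : ℂ, Pt b (x, y) →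
  ((∃ j, 64 * ‖x - b j‖ ^ 2 < H214.hh b j) ∨ 2 * H604.Rr b ^ 2 < ‖x‖ ^ 2) →
    ∀ w, etx O ξ b x y (0, w) = 0

/-! ### the inputs -/

/-- (A0), helper578: smooth roots, marks and sheets -/
def InA0 : Prop := ∃ N₀ : ℝ, 1 ≤ N₀ ∧ ∀ R m S, FarOk R S → ∀ p, Adm R m S N₀ p →
  Brd S (posE R m) (shE R m S) p

/-- (A4): outside the active marks the recursion is trivial -/
def InA4 (O : One) : Prop := ∃ N₀ : ℝ, 1 ≤ N₀ ∧ ∀ R m S, FarOk R S → ∀ p, Adm R m S N₀ p →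
  ∀ t k, (∀ ξ, IsCl ξ → ∀ᶠ q in 𝓝 p, gM O ξ R m S t p k q = 0) ∨ Act' R m S p t k

/-- (B1), helper738 -/
def InB1 : Prop := ∃ K N₀ : ℝ, 1 ≤ N₀ ∧ ∀ R m S, FarOk R S → ∀ p, Adm R m S N₀ p →
  ∀ t k, Act R m S p t k → ∀ d : (W R m).Dir R.Cm, (∀ l, d ≠ .y l) →
    LogN (bM R m) (PMt R m S t k) p ((W R m).vec d) 0 K

/-- (B2), helper738: in the direction of a gap the mark and the roots do not move, or the mark is
at distance at most `e^(-u_f)` of the centre -/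
def InB2 : Prop := ∃ K N₀ : ℝ, 1 ≤ N₀ ∧ ∀ R m S, FarOk R S → ∀ p, Adm R m S N₀ p →
  ∀ t k, Act R m S p t k → ∀ (f : (W R m).Fr) (d : (W R m).Dir R.Cm), (d = .u f ∨ d = .ph f) →
    (LogN (bM R m) (PMt R m S t k) p ((W R m).vec d) 0 0 ∧
      prj (k, t) (fderiv ℝ (posE R m) p ((W R m).vec d)) = 0) ∨
    ‖xM R m S t k p - ctr ((W R m).nk f.1)‖ ≤ K * Real.exp (-p.1 f)

/-- (B3), helper738 -/
def InB3 : Prop := ∃ K N₀ : ℝ, 1 ≤ N₀ ∧ ∀ R m S, FarOk R S → ∀ p, Adm R m S N₀ p →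
  ∀ t k, Act R m S p t k → ∀ l, xM R m S t k p ≠ ctr l →
    LogN (bM R m) (PMt R m S t k) p ((W R m).vec (.al l)) 0
      (K * Real.exp (-p.2.2.1 l / 15) / ‖xM R m S t k p - ctr l‖)

/-- (B4), helper738 -/
def InB4 : Prop := ∃ K N₀ : ℝ, 1 ≤ N₀ ∧ ∀ R m S, FarOk R S → ∀ p, Adm R m S N₀ p →
  ∀ t k k', Act R m S p t k → Act R m S p t k' → NrM R m S p t k k' → ∀ l,
    ∃ ζ, LogN (bM R m) (PMt R m S t k) p ((W R m).eul p l) ζ (K / p.2.2.1 l) ∧
      LogN (bM R m) (PMt R m S t k') p ((W R m).eul p l) ζ (K / p.2.2.1 l)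

/-- (C1), helper213: the cut off differences (`k` active, `l` finite) -/
def InC1 (O : One) : Prop := ∃ K N₀ : ℝ, 1 ≤ N₀ ∧ ∀ R m S, FarOk R S → ∀ p, Adm R m S N₀ p →
  ∀ t k l, Act R m S p t k → fin S t (posE R m p) l → NrM R m S p t k l → ∀ ξ, IsCl ξ →
    |del (etx O ξ) (bM R m p) (PMt R m S t k p) (PMt R m S t l p)| ≤ K * ‖ξ‖ ∧
    (∀ c, |del (etx O ξ) (bM R m p) (PMt R m S t k p) (PMt R m S t l p)| ≤
      K * (|bt ξ c| + ‖ξ‖ * (1 / p.2.2.1 c + ‖xM R m S t k p - ctr c‖))) ∧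
    ((∀ c, bt ξ c = 0) →
      |del (etx O ξ) (bM R m p) (PMt R m S t k p) (PMt R m S t l p)| ≤ K * ww ξ p.2.2.1)

/-- (C2), helper213: near marks are at comparable distance of a centre -/
def InC2 : Prop := ∃ N₀ : ℝ, 1 ≤ N₀ ∧ ∀ R m S, FarOk R S → ∀ p, Adm R m S N₀ p →
  ∀ t k l, fin S t (posE R m p) k → fin S t (posE R m p) l → NrM R m S p t k l → ∀ c,
    ‖xM R m S t l p - ctr c‖ ≤ 2 * ‖xM R m S t k p - ctr c‖ + Real.exp (-p.2.2.1 c / 2) ∧
    ‖xM R m S t k p - ctr c‖ ≤ 2 * ‖xM R m S t l p - ctr c‖ + Real.exp (-p.2.2.1 c / 2)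

end Vale.Agent.P273.H778

end
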