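import Vale.Agent.P273.H778.T2leg

/-!
# P273, (T2) of ASY0: the fields b1, b2, b4 of `AsyL` for the leg of the gauge

`Ins O K R m S p`: all the inputs of T2Defs at one point with one constant `K`.
-/

noncomputable section

namespace Vale.Agent.P273.H778

open Set Filter H681 H95 H732 H562 H973 H578 H803
open scoped Topology ContDiff

/-- marks near an active mark (helper724, helper655) -/
def InAN : Prop := ∃ N₀ : ℝ, 1 ≤ N₀ ∧ ∀ R m S, FarOk R S → ∀ p, Adm R m S N₀ p →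
  ∀ t k l, Act' R m S p t k → fin S t (posE R m p) l → NrM R m S p t k l → Act R m S p t l

/-- all the inputs at one point -/
structure Ins (O : One) (K : ℝ) (R : H95.Region) (m : ∀ k, Fin (R.n k + 1)) (S : L → Bool)
    (p : Co R m) : Prop where
  brd : Brd S (posE R m) (shE R m S) p
  a4 : ∀ t k, (∀ ξ, IsCl ξ → ∀ᶠ q in 𝓝 p, gM O ξ R m S t p k q = 0) ∨ Act' R m S p t k
  an : ∀ t k l, Act' R m S p t k → fin S t (posE R m p) l → NrM R m S p t k l → Act R m S p t l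
  b1 : ∀ t k, Act R m S p t k → ∀ d : (W R m).Dir R.Cm, (∀ l, d ≠ .y l) →
    LogN (bM R m) (PMt R m S t k) p ((W R m).vec d) 0 K
  b2 : ∀ t k, Act R m S p t k → ∀ (f : (W R m).Fr) (d : (W R m).Dir R.Cm),
    (d = .u f ∨ d = .ph f) →
    (LogN (bM R m) (PMt R m S t k) p ((W R m).vec d) 0 0 ∧
      prj (k, t) (fderiv ℝ (posE R m) p ((W R m).vec d)) = 0) ∨
    ‖xM R m S t k p - ctr ((W R m).nk f.1)‖ ≤ K * Real.exp (-p.1 f)
  b3 : ∀ t k, Act R m S p t k → ∀ l, xM R m S t k p ≠ ctr l →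
    LogN (bM R m) (PMt R m S t k) p ((W R m).vec (.al l)) 0
      (K * Real.exp (-p.2.2.1 l / 15) / ‖xM R m S t k p - ctr l‖)
  b4 : ∀ t k k', Act R m S p t k → Act R m S p t k' → NrM R m S p t k k' → ∀ l,
    ∃ ζ, LogN (bM R m) (PMt R m S t k) p ((W R m).eul p l) ζ (K / p.2.2.1 l) ∧
      LogN (bM R m) (PMt R m S t k') p ((W R m).eul p l) ζ (K / p.2.2.1 l)
  c1 : ∀ t k l, Act R m S p t k → fin S t (posE R m p) l → NrM R m S p t k l → ∀ ξ, IsCl ξ →
    |del (etx O ξ) (bM R m p) (PMt R m S t k p) (PMt R m S t l p)| ≤ K * ‖ξ‖ ∧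
    (∀ c, |del (etx O ξ) (bM R m p) (PMt R m S t k p) (PMt R m S t l p)| ≤
      K * (|bt ξ c| + ‖ξ‖ * (1 / p.2.2.1 c + ‖xM R m S t k p - ctr c‖))) ∧
    ((∀ c, bt ξ c = 0) →
      |del (etx O ξ) (bM R m p) (PMt R m S t k p) (PMt R m S t l p)| ≤ K * ww ξ p.2.2.1)
  c2 : ∀ t k l, fin S t (posE R m p) k → fin S t (posE R m p) l → NrM R m S p t k l → ∀ c,
    ‖xM R m S t l p - ctr c‖ ≤ 2 * ‖xM R m S t k p - ctr c‖ + Real.exp (-p.2.2.1 c / 2) ∧
    ‖xM R m S t k p - ctr c‖ ≤ 2 * ‖xM R m S t l p - ctr c‖ + Real.exp (-p.2.2.1 c / 2)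

theorem adm_mono {R : H95.Region} {m : ∀ k, Fin (R.n k + 1)} {S : L → Bool} {N N' : ℝ}
    (h : N' ≤ N) {p : Co R m} (hp : Adm R m S N p) : Adm R m S N' p :=
  ⟨hp.1, fun k => h.trans (hp.2.1 k), hp.2.2⟩

theorem logN_mono {E ι : Type*} [NormedAddCommGroup E] [NormedSpace ℝ E] [Fintype ι]
    {b : E → ι → ℂ} {P : E → ℂ × ℂ} {e v : E} {ζ : ℂ} {ρ ρ' : ℝ} (h : ρ ≤ ρ')
    (hL : LogN b P e v ζ ρ) : LogN b P e v ζ ρ' := fun i =>
  (hL i).trans (mul_le_mul_of_nonneg_right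
    (mul_le_mul_of_nonneg_right h (by positivity)) (H562.qs_nonneg _))

theorem logN_min {E ι : Type*} [NormedAddCommGroup E] [NormedSpace ℝ E] [Fintype ι]
    {b : E → ι → ℂ} {P : E → ℂ × ℂ} {e v : E} {ζ : ℂ} {ρ ρ' : ℝ}
    (h : LogN b P e v ζ ρ) (h' : LogN b P e v ζ ρ') : LogN b P e v ζ (min ρ ρ') := by
  rcases min_choice ρ ρ' with h1 | h1 <;> rw [h1]
  · exact h
  · exact h'

/-- `ww` is nonnegative -/
theorem ww_nonneg (ξ : Fin 6 → ℝ) {y : Fin 3 → ℝ} (hy : ∀ k, 0 ≤ y k) : 0 ≤ ww ξ y :=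
  Finset.sum_nonneg fun k _ => div_nonneg (abs_nonneg _) (hy k)

/-- **all inputs with one constant** -/
theorem exists_ins {O : One} (a0 : InA0) (a4 : InA4 O) (an : InAN) (b1 : InB1) (b2 : InB2)
    (b3 : InB3) (b4 : InB4) (c1 : InC1 O) (c2 : InC2) :
    ∃ K N₀ : ℝ, 1 ≤ K ∧ 1 ≤ N₀ ∧ ∀ R m S, FarOk R S → ∀ p, Adm R m S N₀ p →
      Ins O K R m S p := by
  obtain ⟨N1, h1, a0⟩ := a0
  obtain ⟨N2, h2, a4⟩ := a4
  obtain ⟨N3, h3, an⟩ := an
  obtain ⟨K4, N4, h4, b1⟩ := b1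
  obtain ⟨K5, N5, h5, b2⟩ := b2
  obtain ⟨K6, N6, h6, b3⟩ := b3
  obtain ⟨K7, N7, h7, b4⟩ := b4
  obtain ⟨K8, N8, h8, c1⟩ := c1
  obtain ⟨N9, h9, c2⟩ := c2
  have e0 := abs_nonneg K4
  have e1 := abs_nonneg K5
  have e2 := abs_nonneg K6
  have e3 := abs_nonneg K7
  have e4 := abs_nonneg K8
  have f0 := le_abs_self K4
  have f1 := le_abs_self K5
  have f2 := le_abs_self K6
  have f3 := le_abs_self K7
  have f4 := le_abs_self K8
  refine ⟨1 + |K4| + |K5| + |K6| + |K7| + |K8|,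
    N1 + N2 + N3 + N4 + N5 + N6 + N7 + N8 + N9, by linarith, by linarith, ?_⟩
  intro R m S hS p hp
  have hy : ∀ c, 0 < p.2.2.1 c := fun c => by
    have := hp.2.1 c
    linarith
  refine ⟨a0 R m S hS p (adm_mono (by linarith) hp), a4 R m S hS p (adm_mono (by linarith) hp),
    an R m S hS p (adm_mono (by linarith) hp), ?_, ?_, ?_, ?_, ?_,
    c2 R m S hS p (adm_mono (by linarith) hp)⟩
  · intro t k hk d hd
    exact logN_mono (by linarith) (b1 R m S hS p (adm_mono (by linarith) hp) t k hk d hd)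
  · intro t k hk f d hd
    rcases b2 R m S hS p (adm_mono (by linarith) hp) t k hk f d hd with h | h
    · exact Or.inl h
    · exact Or.inr (h.trans (mul_le_mul_of_nonneg_right (by linarith) (Real.exp_pos _).le))
  · intro t k hk l hl
    refine logN_mono ?_ (b3 R m S hS p (adm_mono (by linarith) hp) t k hk l hl)
    exact div_le_div_of_nonneg_right (mul_le_mul_of_nonneg_right (by linarith)
      (Real.exp_pos _).le) (norm_nonneg _)
  · intro t k k' hk hk' hN l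
    obtain ⟨ζ, g1, g2⟩ := b4 R m S hS p (adm_mono (by linarith) hp) t k k' hk hk' hN l
    have g3 : K7 / p.2.2.1 l ≤ (1 + |K4| + |K5| + |K6| + |K7| + |K8|) / p.2.2.1 l :=
      div_le_div_of_nonneg_right (by linarith) (hy l).le
    exact ⟨ζ, logN_mono g3 g1, logN_mono g3 g2⟩
  · intro t k l hk hl hN ξ hξ
    obtain ⟨g1, g2, g3⟩ := c1 R m S hS p (adm_mono (by linarith) hp) t k l hk hl hN ξ hξ
    have hK : K8 ≤ 1 + |K4| + |K5| + |K6| + |K7| + |K8| := by linarith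
    refine ⟨g1.trans (mul_le_mul_of_nonneg_right hK (norm_nonneg _)), fun c => ?_, fun h => ?_⟩
    · refine (g2 c).trans (mul_le_mul_of_nonneg_right hK ?_)
      have := hy c
      positivity
    · exact (g3 h).trans (mul_le_mul_of_nonneg_right hK (ww_nonneg _ fun c => (hy c).le))

/-! ### small numbers -/

theorem exp_half_le {y : ℝ} (hy : 0 < y) : Real.exp (-y / 2) ≤ 2 / y := by
  have h1 : y / 2 < Real.exp (y / 2) := (lt_add_one _).trans_le (Real.add_one_le_exp _)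
  rw [neg_div, Real.exp_neg, le_div_iff₀ hy, inv_mul_le_iff₀ (Real.exp_pos _)]
  linarith

theorem exp_fif_le {y : ℝ} (hy : 0 < y) : Real.exp (-y / 15) ≤ 15 / y := by
  have h1 : y / 15 < Real.exp (y / 15) := (lt_add_one _).trans_le (Real.add_one_le_exp _)
  rw [neg_div, Real.exp_neg, le_div_iff₀ hy, inv_mul_le_iff₀ (Real.exp_pos _)]
  linarith

variable {O : One} {κ : Fin 3 → Fin 3 → ℝ}

/-- the hypothesis: the inputs near the theta point -/
def HIns (O : One) (K N₀ : ℝ) : Prop := ∀ R m S, FarOk R S → ∀ p, Adm R m S N₀ p → Ins O K R m S p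

theorem act_of_act' {R : H95.Region} {m : ∀ k, Fin (R.n k + 1)} {S : L → Bool}
    {p : Co R m} {t : Bool} {k : Fin 7} (h : Act' R m S p t k) : Act R m S p t k :=
  ⟨h.fin, fun i => le_trans (by
    have := Real.exp_pos (-(p.2.2.1 (H738.kp i)) / 2)
    nlinarith) (h.off i), h.zone.trans (by norm_num)⟩

/-! ### b1 -/

theorem t2_b1 (hA : AsyL κ (lgP O)) {K₁ M : ℝ} (hK : 1 ≤ K₁) (hM : 1 ≤ M) (hI : HIns O K₁ M) :
    ∃ K N₀ : ℝ, 1 ≤ N₀ ∧ ∀ R m S, FarOk R S → ∀ p, Adm R m S N₀ p → ∀ j ξ, IsCl ξ →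
    ∀ d : (W R m).Dir R.Cm, (∀ k, d ≠ .y k) →
      |lgT O R m S j ξ p ((W R m).vec d)| ≤ K * ‖ξ‖ := by
  obtain ⟨K₂, N₂, h2, hA⟩ := hA.b1
  refine ⟨CL 1 * (|K₂| + K₁ ^ 2), max M N₂, le_max_of_le_left hM, ?_⟩
  intro R m S hS p hp ⟨k, t⟩ ξ hξ d hd
  have I := hI R m S hS p (adm_mono (le_max_left _ _) hp)
  have hA := hA R m S hS p (adm_mono (le_max_right _ _) hp)
  have h0 := norm_nonneg ξ
  have h1 := abs_nonneg K₂
  rw [mul_assoc]
  refine leg_bound (w := fun _ => K₁ * ‖ξ‖) I.brd hξ (by positivity) le_rfl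
    (fun _ => by positivity) (fun l => ?_) (fun k => ?_) k
  · refine (hA (l, t) ξ hξ d hd).trans (mul_le_mul_of_nonneg_right ?_ h0)
    have := le_abs_self K₂
    nlinarith
  · rcases I.a4 t k with h3 | h3
    · exact Or.inl (h3 ξ hξ)
    right
    intro l _ hk hl hN
    have hka : Act R m S p t k := act_of_act' h3
    have hla := I.an t k l h3 hl hN
    refine ⟨(I.c1 t k l hka hl hN ξ hξ).1, by linarith, 0, K₁, by linarith,
      I.b1 t k hka d hd, I.b1 t l hla d hd, ?_⟩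
    nlinarith [mul_nonneg h1 h0]

/-! ### b2 -/

theorem t2_b2 (hA : AsyL κ (lgP O)) {K₁ M : ℝ} (hK : 1 ≤ K₁) (hM : 1 ≤ M) (hI : HIns O K₁ M) :
    ∃ K N₀ : ℝ, 1 ≤ N₀ ∧ ∀ R m S, FarOk R S → ∀ p, Adm R m S N₀ p → ∀ j ξ, IsCl ξ →
    ∀ f : (W R m).Fr, ∀ d : (W R m).Dir R.Cm, (d = .u f ∨ d = .ph f) →
      |lgT O R m S j ξ p ((W R m).vec d)| ≤ K * (|bt ξ ((W R m).nk f.1)| +
        ‖ξ‖ * (1 / p.2.2.1 ((W R m).nk f.1) + Real.exp (-p.1 f))) := by
  obtain ⟨K₂, N₂, h2, hA⟩ := hA.b2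
  refine ⟨CL 3 * (|K₂| + 3 * K₁ ^ 3), max M N₂, le_max_of_le_left hM, ?_⟩
  intro R m S hS p hp ⟨k, t⟩ ξ hξ f d hd
  have I := hI R m S hS p (adm_mono (le_max_left _ _) hp)
  have hA := hA R m S hS p (adm_mono (le_max_right _ _) hp)
  set c := (W R m).nk f.1 with hc
  have hy : 0 < p.2.2.1 c := by
    have := hp.2.1 c
    have := le_max_left M N₂
    linarith
  have h0 := norm_nonneg ξ
  have h1 := abs_nonneg K₂
  have hb := abs_nonneg (bt ξ c)
  have hu := Real.exp_pos (-p.1 f)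
  have hiy : 0 < 1 / p.2.2.1 c := by positivity
  have hey : Real.exp (-p.2.2.1 c / 2) ≤ 2 * (1 / p.2.2.1 c) := by
    have := exp_half_le hy
    rw [mul_one_div]
    exact this
  set Y := 1 / p.2.2.1 c with hY
  set U := Real.exp (-p.1 f) with hU
  have hnY : 0 ≤ ‖ξ‖ * Y := by positivity
  have hnU : 0 ≤ ‖ξ‖ * U := by positivity
  have hdy : ∀ l, d ≠ .y l := by
    intro l hl
    rcases hd with h | h <;> rw [h] at hl <;> exact absurd hl (by simp)
  rw [mul_assoc]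
  refine leg_bound (K := 3) (w := fun k => K₁ * (|bt ξ c| + ‖ξ‖ *
    (Y + ‖xM R m S t k p - ctr c‖))) I.brd hξ (by positivity)
    (by norm_num) (fun _ => by positivity) (fun l => ?_) (fun k => ?_) k
  · refine (hA (l, t) ξ hξ f d hd).trans (mul_le_mul_of_nonneg_right ?_ (by positivity))
    have h3 := le_abs_self K₂
    have h4 : 0 ≤ K₁ ^ 3 := by positivity
    linarith
  · rcases I.a4 t k with h3 | h3
    · exact Or.inl (h3 ξ hξ)
    right
    intro l _ hk hl hN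
    have hka : Act R m S p t k := act_of_act' h3
    have hla := I.an t k l h3 hl hN
    obtain ⟨g1, g2⟩ := I.c2 t k l hk hl hN c
    have r1 := norm_nonneg (xM R m S t k p - ctr c)
    have r2 := norm_nonneg (xM R m S t l p - ctr c)
    refine ⟨(I.c1 t k l hka hl hN ξ hξ).2.1 c, ?_, ?_⟩
    · have g3 : ‖xM R m S t l p - ctr c‖ ≤ 2 * ‖xM R m S t k p - ctr c‖ + 2 * Y := g1.trans (by linarith)
      have g4 : ‖ξ‖ * (Y + ‖xM R m S t l p - ctr c‖) ≤
          ‖ξ‖ * (3 * (Y + ‖xM R m S t k p - ctr c‖)) :=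
        mul_le_mul_of_nonneg_left (by linarith) h0
      have g5 := mul_le_mul_of_nonneg_left (a := K₁)
        (add_le_add (show |bt ξ c| ≤ 3 * |bt ξ c| by linarith) g4) (by linarith)
      refine g5.trans (le_of_eq (by ring))
    · have key : ‖xM R m S t k p - ctr c‖ ≤ 2 * K₁ * U + 2 * Y →
          ∃ (ζ : ℂ) (ρ : ℝ), 0 ≤ ρ ∧ LogN (bM R m) (PMt R m S t k) p ((W R m).vec d) ζ ρ ∧
          LogN (bM R m) (PMt R m S t l) p ((W R m).vec d) ζ ρ ∧
          ρ * (K₁ * (|bt ξ c| + ‖ξ‖ * (Y + ‖xM R m S t k p - ctr c‖))) ≤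
            (|K₂| + 3 * K₁ ^ 3) * (|bt ξ c| + ‖ξ‖ * (Y + U)) := by
        intro h5
        refine ⟨0, K₁, by linarith, I.b1 t k hka d hdy, I.b1 t l hla d hdy, ?_⟩
        have h6 : |bt ξ c| + ‖ξ‖ * (Y + ‖xM R m S t k p - ctr c‖) ≤
            3 * K₁ * (|bt ξ c| + ‖ξ‖ * (Y + U)) := by
          have h7 : ‖ξ‖ * (Y + ‖xM R m S t k p - ctr c‖) ≤ ‖ξ‖ * (3 * Y + 2 * K₁ * U) :=
            mul_le_mul_of_nonneg_left (by linarith) h0
          nlinarith [mul_nonneg (sub_nonneg.2 hK) hb, mul_nonneg (sub_nonneg.2 hK) hnY,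
            mul_nonneg (sub_nonneg.2 hK) hnU]
        have hW : 0 ≤ |bt ξ c| + ‖ξ‖ * (Y + U) := by positivity
        calc K₁ * (K₁ * (|bt ξ c| + ‖ξ‖ * (Y + ‖xM R m S t k p - ctr c‖)))
            ≤ K₁ * (K₁ * (3 * K₁ * (|bt ξ c| + ‖ξ‖ * (Y + U)))) := by gcongr
          _ = 3 * K₁ ^ 3 * (|bt ξ c| + ‖ξ‖ * (Y + U)) := by ring
          _ ≤ _ := mul_le_mul_of_nonneg_right (by linarith) hW
      rcases I.b2 t k hka f d hd with q1 | q1
      · rcases I.b2 t l hla f d hd with q2 | q2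
        · refine ⟨0, 0, le_rfl, q1.1, q2.1, ?_⟩
          rw [zero_mul]
          positivity
        · exact key (g2.trans (by
            have := q2
            linarith))
      · exact key (q1.trans (by
          nlinarith [mul_nonneg (show (0:ℝ) ≤ K₁ by linarith) hu.le]))

/-! ### b4 -/

theorem t2_b4 (hA : AsyL κ (lgP O)) {K₁ M : ℝ} (hK : 1 ≤ K₁) (hM : 1 ≤ M) (hI : HIns O K₁ M) :
    ∃ K N₀ : ℝ, 1 ≤ N₀ ∧ ∀ R m S, FarOk R S → ∀ p, Adm R m S N₀ p → ∀ j ξ, IsCl ξ →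
    ∀ k, |lgT O R m S j ξ p ((W R m).vec (.al k))| ≤ K * (|bt ξ k| + ‖ξ‖ / p.2.2.1 k) := by
  obtain ⟨K₂, N₂, h2, hA⟩ := hA.b4
  refine ⟨CL 3 * (|K₂| + 46 * K₁ ^ 2), max M N₂, le_max_of_le_left hM, ?_⟩
  intro R m S hS p hp ⟨k, t⟩ ξ hξ c
  have I := hI R m S hS p (adm_mono (le_max_left _ _) hp)
  have hA := hA R m S hS p (adm_mono (le_max_right _ _) hp)
  have hy : 0 < p.2.2.1 c := by
    have := hp.2.1 c
    have := le_max_left M N₂
    linarith
  have h0 := norm_nonneg ξ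
  have h1 := abs_nonneg K₂
  have hb := abs_nonneg (bt ξ c)
  have hey : Real.exp (-p.2.2.1 c / 2) ≤ 2 * (1 / p.2.2.1 c) := by
    have := exp_half_le hy
    rw [mul_one_div]
    exact this
  have hez : Real.exp (-p.2.2.1 c / 15) ≤ 15 * (1 / p.2.2.1 c) := by
    have := exp_fif_le hy
    rw [mul_one_div]
    exact this
  have hiy : 0 < 1 / p.2.2.1 c := by positivity
  have hdiv : ‖ξ‖ / p.2.2.1 c = ‖ξ‖ * (1 / p.2.2.1 c) := by rw [mul_one_div]
  rw [hdiv]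
  have hA' : ∀ j : L, |lgP O R m S j ξ p ((W R m).vec (.al c))| ≤
      K₂ * (|bt ξ c| + ‖ξ‖ * (1 / p.2.2.1 c)) := fun j => by
    have := hA j ξ hξ c
    rw [hdiv] at this
    exact this
  set Y := 1 / p.2.2.1 c with hY
  set V := Real.exp (-p.2.2.1 c / 2) with hV
  set Z := Real.exp (-p.2.2.1 c / 15) with hZ
  have hVp : 0 < V := Real.exp_pos _
  have hZp : 0 < Z := Real.exp_pos _
  have hnY : 0 ≤ ‖ξ‖ * Y := by positivity
  have hdy : ∀ l, (H732.Reg.Dir.al c : (W R m).Dir R.Cm) ≠ .y l := by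
    intro l hl
    exact absurd hl (by simp)
  have hK0 : 0 ≤ K₁ := by linarith
  rw [mul_assoc]
  refine leg_bound (K := 3) (w := fun k => K₁ * (|bt ξ c| + ‖ξ‖ *
    (Y + ‖xM R m S t k p - ctr c‖))) I.brd hξ (by positivity)
    (by norm_num) (fun _ => by positivity) (fun l => ?_) (fun k => ?_) k
  · refine (hA' (l, t)).trans (mul_le_mul_of_nonneg_right ?_ (by positivity))
    have h3 := le_abs_self K₂
    have h4 : 0 ≤ K₁ ^ 2 := by positivity
    linarith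
  · rcases I.a4 t k with h3 | h3
    · exact Or.inl (h3 ξ hξ)
    right
    intro l _ hk hl hN
    have hka : Act R m S p t k := act_of_act' h3
    have hla := I.an t k l h3 hl hN
    obtain ⟨g1, g2⟩ := I.c2 t k l hk hl hN c
    have r1 := norm_nonneg (xM R m S t k p - ctr c)
    have r2 := norm_nonneg (xM R m S t l p - ctr c)
    refine ⟨(I.c1 t k l hka hl hN ξ hξ).2.1 c, ?_, ?_⟩
    · have g3 : ‖xM R m S t l p - ctr c‖ ≤ 2 * ‖xM R m S t k p - ctr c‖ + 2 * Y :=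
        g1.trans (by linarith)
      have g4 : ‖ξ‖ * (Y + ‖xM R m S t l p - ctr c‖) ≤
          ‖ξ‖ * (3 * (Y + ‖xM R m S t k p - ctr c‖)) :=
        mul_le_mul_of_nonneg_left (by linarith) h0
      have g5 := mul_le_mul_of_nonneg_left (a := K₁)
        (add_le_add (show |bt ξ c| ≤ 3 * |bt ξ c| by linarith) g4) (by linarith)
      refine g5.trans (le_of_eq (by ring))
    · have hW : 0 ≤ |bt ξ c| + ‖ξ‖ * Y := by positivity
      by_cases h5 : ‖xM R m S t k p - ctr c‖ ≤ 4 * V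
      · refine ⟨0, K₁, hK0, I.b1 t k hka _ hdy, I.b1 t l hla _ hdy, ?_⟩
        have h6 : |bt ξ c| + ‖ξ‖ * (Y + ‖xM R m S t k p - ctr c‖) ≤
            9 * (|bt ξ c| + ‖ξ‖ * Y) := by
          have h7 : ‖ξ‖ * (Y + ‖xM R m S t k p - ctr c‖) ≤ ‖ξ‖ * (9 * Y) :=
            mul_le_mul_of_nonneg_left (by linarith) h0
          linarith
        calc K₁ * (K₁ * (|bt ξ c| + ‖ξ‖ * (Y + ‖xM R m S t k p - ctr c‖)))
            ≤ K₁ * (K₁ * (9 * (|bt ξ c| + ‖ξ‖ * Y))) := by gcongr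
          _ = 9 * K₁ ^ 2 * (|bt ξ c| + ‖ξ‖ * Y) := by ring
          _ ≤ _ := mul_le_mul_of_nonneg_right (by nlinarith [sq_nonneg K₁]) hW
      · push Not at h5
        have rk0 : 0 < ‖xM R m S t k p - ctr c‖ := by linarith
        have rl : 3 / 8 * ‖xM R m S t k p - ctr c‖ ≤ ‖xM R m S t l p - ctr c‖ := by linarith
        have rl0 : 0 < ‖xM R m S t l p - ctr c‖ := by linarith
        have n1 : xM R m S t k p ≠ ctr c := fun h => by
          rw [h, sub_self, norm_zero] at rk0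
          exact lt_irrefl _ rk0
        have n2 : xM R m S t l p ≠ ctr c := fun h => by
          rw [h, sub_self, norm_zero] at rl0
          exact lt_irrefl _ rl0
        set r := ‖xM R m S t k p - ctr c‖ with hr
        have q1 : LogN (bM R m) (PMt R m S t k) p ((W R m).vec (.al c)) 0
            (3 * K₁ * Z / r) := by
          refine logN_mono ?_ (I.b3 t k hka c n1)
          refine div_le_div_of_nonneg_right ?_ rk0.le
          nlinarith [mul_nonneg hK0 hZp.le]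
        have q2 : LogN (bM R m) (PMt R m S t l) p ((W R m).vec (.al c)) 0
            (3 * K₁ * Z / r) := by
          refine logN_mono ?_ (I.b3 t l hla c n2)
          rw [div_le_div_iff₀ rl0 rk0]
          nlinarith [mul_nonneg (mul_nonneg hK0 hZp.le) (sub_nonneg.2 rl),
            mul_nonneg (mul_nonneg hK0 hZp.le) rk0.le]
        refine ⟨0, min K₁ (3 * K₁ * Z / r), le_min hK0 (by positivity),
          logN_min (I.b1 t k hka _ hdy) q1, logN_min (I.b1 t l hla _ hdy) q2, ?_⟩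
        have m1 : min K₁ (3 * K₁ * Z / r) ≤ K₁ := min_le_left _ _
        have m2 : min K₁ (3 * K₁ * Z / r) * r ≤ 3 * K₁ * Z := by
          refine (mul_le_mul_of_nonneg_right (min_le_right _ _) rk0.le).trans (le_of_eq ?_)
          field_simp
        have m0 : 0 ≤ min K₁ (3 * K₁ * Z / r) := le_min hK0 (by positivity)
        calc min K₁ (3 * K₁ * Z / r) * (K₁ * (|bt ξ c| + ‖ξ‖ * (Y + r)))
            = K₁ * (min K₁ (3 * K₁ * Z / r) * (|bt ξ c| + ‖ξ‖ * Y)) +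
              K₁ * ‖ξ‖ * (min K₁ (3 * K₁ * Z / r) * r) := by ring
          _ ≤ K₁ * (K₁ * (|bt ξ c| + ‖ξ‖ * Y)) + K₁ * ‖ξ‖ * (3 * K₁ * Z) := by gcongr
          _ ≤ K₁ * (K₁ * (|bt ξ c| + ‖ξ‖ * Y)) + K₁ * ‖ξ‖ * (3 * K₁ * (15 * Y)) := by gcongr
          _ = K₁ ^ 2 * (|bt ξ c| + 46 * (‖ξ‖ * Y)) := by ring
          _ ≤ K₁ ^ 2 * (46 * (|bt ξ c| + ‖ξ‖ * Y)) :=
              mul_le_mul_of_nonneg_left (by linarith) (sq_nonneg _)
          _ = 46 * K₁ ^ 2 * (|bt ξ c| + ‖ξ‖ * Y) := by ring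
          _ ≤ _ := mul_le_mul_of_nonneg_right (by linarith) hW

end Vale.Agent.P273.H778

end
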