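import Vale.Agent.P273.H778.T2b
import Vale.Agent.P273.H724.T2b6
import Vale.Agent.P273.H724.ActN
import Vale.Agent.P273.H738.InB
import Vale.Agent.P273.H213.InC
import Vale.Agent.P273.H578.InA0

/-!
# P273, (T2) of ASY0: the b-fields of `AsyL` for the leg of the gauge, from `InA4`
-/

noncomputable section

namespace Vale.Agent.P273.H778

open Set Filter H681 H95 H732 H562 H973 H578 H803
open scoped Topology ContDiff

theorem inAN : InAN := ⟨1, le_rfl, fun _ _ _ _ _ hp _ _ _ hk hl hN =>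
  H724.act_near' zero_le_one hp hk hl hN⟩

/-- all inputs with one constant, from `Vert` and `InA4` -/
theorem exists_hIns {O : One} (hV : Vert O) (h4 : InA4 O) :
    ∃ K N₀ : ℝ, 1 ≤ K ∧ 1 ≤ N₀ ∧ HIns O K N₀ :=
  exists_ins H578.inA0 h4 inAN H738.inB1 H738.inB2 H738.inB3 H738.inB4
    (H213.inC1_of H578.inA0 hV) (H213.inC2_of H578.inA0)

/-- **(T2)**: `AsyL` for the one mark forms ⇒ `AsyL` for the legs of the gauge, limits given -/
theorem asyL_of_lims {κ : Fin 3 → Fin 3 → ℝ} {O : One} (hA : AsyL κ (lgP O)) (hV : Vert O)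
    (h4 : InA4 O)
    (limN : ∀ R m S, FarOk R S → ∀ (B : Set (W R m).Fr) (p : Co R m), Gen R m S B p →
      (∀ k, 0 < p.2.2.1 k) → ∀ (j : L) (k : Fin 3) (h : R.pl j = Sum.inl k) (ξ : Fin 6 → ℝ),
      IsCl ξ → ∀ d : BDir R m, d.ok R m B →
      Tendsto (fun N : ℝ => d.sca R m N * lgT O R m S j ξ ((W R m).dpt B N p)
        (d.vec R m B ((W R m).dpt B N p))) atTop
        (𝓝 (legN κ R m ξ p.2.2.1 p.2.2.2.1 k (depl R m B p h)
          (wreg.LX R.Cm R.n m k (rkF R h)) d)))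
    (limC : ∀ R m S, FarOk R S → ∀ (B : Set (W R m).Fr) (p : Co R m), Gen R m S B p →
      (∀ k, 0 < p.2.2.1 k) → ∀ (j : L) (b : Bool), R.pl j = Sum.inr b → ∀ ξ : Fin 6 → ℝ,
      IsCl ξ → ∀ d : BDir R m, d.ok R m B →
      Tendsto (fun N : ℝ => d.sca R m N * lgT O R m S j ξ ((W R m).dpt B N p)
        (d.vec R m B ((W R m).dpt B N p))) atTop
        (𝓝 (legC κ R m ξ p.2.2.1 p.2.2.2.1 b d)))
    (lim0 : ∀ R m S, FarOk R S → ∀ (B : Set (W R m).Fr) (p : Co R m), Gen R m S B p →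
      (∀ k, 0 < p.2.2.1 k) → ∀ (j : L) (ξ : Fin 6 → ℝ), IsCl ξ → (∀ k, bt ξ k = 0) →
      (∀ f ∈ B, Tendsto (fun N : ℝ => N * lgT O R m S j ξ ((W R m).dpt B N p)
        ((W R m).vec (.ph f))) atTop (𝓝 0)) ∧
      ∀ l, Tendsto (fun N : ℝ => N * lgT O R m S j ξ ((W R m).dpt B N p)
        ((W R m).vec (.al l))) atTop (𝓝 0)) :
    AsyL κ (lgT O) := by
  obtain ⟨K, N₀, hK, hN, hI⟩ := exists_hIns hV h4
  exact
    { b1 := t2_b1 hA hK hN hI
      b2 := t2_b2 hA hK hN hI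
      b4 := t2_b4 hA hK hN hI
      b5 := H724.t2_b5 hA H578.inA0 h4 H738.inB4 (H213.inC1_of H578.inA0 hV)
      b6 := H724.t2_b6 hA H578.inA0 h4 H738.inB1 H738.inB4 (H213.inC1_of H578.inA0 hV)
      limN := limN
      limC := limC
      lim0 := lim0 }

end Vale.Agent.P273.H778

end
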