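import Vale.Agent.P273.H973.Bounds

/-!
# P273, row LIM-G1: bounds and limits for the collision recursion, one cluster at a time

`gfun c ψ k` is helper973's recursion.  A cluster is a predicate `V` on the marks such that
near the point the cut-offs between a mark of `V` and an earlier mark outside `V` vanish.
-/

set_option linter.unusedSectionVars false

open scoped ContDiff Topology
open Finset Function Filter

namespace Vale.Agent.P273.H778

open Vale.Agent.P273.H973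

noncomputable section

/-! ## The recursion only sees the cluster -/

section Alg

variable {H : Type*} [AddCommGroup H] [Module ℝ H]

theorem stp_congr' {c c' : ℕ → ℝ} {ψ ψ' G G' : ℕ → H} {k : ℕ}
    (h : ∀ l < k, c l = c' l ∧ ψ l = ψ' l ∧ (G l = G' l ∨ c l = 0)) :
    stp c ψ G k = stp c' ψ' G' k := by
  induction k with
  | zero => rfl
  | succ k ih =>
    have h1 := ih fun l hl => h l (by omega)
    obtain ⟨h2, h3, h4⟩ := h k (by omega)
    simp only [stp, h1, h3]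
    rcases h4 with h4 | h4
    · rw [h2, h4]
    · rw [← h2, h4, zero_smul, zero_smul]

theorem gk_cluster {c c' : ℕ → ℕ → ℝ} {ψ ψ' : ℕ → ℕ → H} {V : ℕ → Prop} {n : ℕ}
    (h : ∀ k < n, V k → ∀ l < k, c k l = c' k l ∧ ψ k l = ψ' k l ∧ (V l ∨ c k l = 0)) :
    ∀ k < n, V k → gk c ψ k = gk c' ψ' k := by
  intro k
  induction k using Nat.strong_induction_on with
  | _ k ih =>
    intro hk hV
    rw [gk_eq, gk_eq]
    refine stp_congr' fun l hl => ?_
    obtain ⟨h1, h2, h3⟩ := h k hk hV l hl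
    refine ⟨h1, h2, ?_⟩
    rcases h3 with h3 | h3
    · exact Or.inl (ih l hl (by omega) h3)
    · exact Or.inr h3

variable {n : ℕ}

theorem gf_cluster {c c' : Fin n → Fin n → ℝ} {ψ ψ' : Fin n → Fin n → H} {V : Fin n → Prop}
    (h : ∀ k, V k → ∀ l, l < k → c k l = c' k l ∧ ψ k l = ψ' k l ∧ (V l ∨ c k l = 0))
    {k : Fin n} (hV : V k) : gf c ψ k = gf c' ψ' k := by
  refine gk_cluster (V := fun k => ∃ h : k < n, V ⟨k, h⟩) (n := n) ?_ (k : ℕ) k.2 ⟨k.2, hV⟩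
  rintro k hk ⟨_, hV⟩ l hl
  have hl' := lt_trans hl hk
  obtain ⟨h1, h2, h3⟩ := h ⟨k, hk⟩ hV ⟨l, hl'⟩ hl
  rw [ex_apply _ _ hk hl', ex_apply _ _ hk hl', ex_apply _ _ hk hl', ex_apply _ _ hk hl']
  refine ⟨h1, h2, ?_⟩
  rcases h3 with h3 | h3
  · exact Or.inl ⟨hl', h3⟩
  · exact Or.inr h3

end Alg

variable {X H : Type*} [NormedAddCommGroup X] [NormedSpace ℝ X]
  [NormedAddCommGroup H] [NormedSpace ℝ H] {n : ℕ}

open Classical in
/-- the table cut to the cluster -/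
def cutV {α : Type*} [Zero α] (V : Fin n → Prop) (c : Fin n → Fin n → X → α) :
    Fin n → Fin n → X → α := fun k l z => if V k ∧ V l then c k l z else 0

/-- `V` is closed under the cut-offs near `x` -/
def Cluster (c : Fin n → Fin n → X → ℝ) (ψ : Fin n → Fin n → X → H) (V : Fin n → Prop)
    (x : X) : Prop :=
  ∀ k, V k → ∀ l, l < k → ¬ V l → ∀ᶠ z in 𝓝 x, c k l z = 0 ∧ ψ k l z = 0

variable {c : Fin n → Fin n → X → ℝ} {ψ : Fin n → Fin n → X → H} {V : Fin n → Prop} {x v : X}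

omit [NormedSpace ℝ X] in
theorem gfun_cluster (h : Cluster c ψ V x) {k : Fin n} (hV : V k) :
    ∀ᶠ z in 𝓝 x, gfun c ψ k z = gfun (cutV V c) (cutV V ψ) k z := by
  have h1 : ∀ᶠ z in 𝓝 x, ∀ k, V k → ∀ l, l < k → ¬ V l → c k l z = 0 ∧ ψ k l z = 0 := by
    refine eventually_all.2 fun k => ?_
    refine eventually_imp_distrib_left.2 fun hk => eventually_all.2 fun l => ?_
    refine eventually_imp_distrib_left.2 fun hl => eventually_imp_distrib_left.2 fun hV' => ?_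
    exact h k hk l hl hV'
  filter_upwards [h1] with z hz
  refine gf_cluster (V := V) (fun k hk l hl => ?_) hV
  by_cases hl' : V l
  · refine ⟨?_, ?_, Or.inl hl'⟩ <;> simp [cutV, hk, hl']
  · obtain ⟨e1, e2⟩ := hz k hk l hl hl'
    refine ⟨?_, ?_, Or.inr e1⟩
    · simp [cutV, hl', e1]
    · simp [cutV, hl', e2]

omit [NormedSpace ℝ X] in
theorem gfun_cutV_zero {k : Fin n} (hV : ¬ V k) (z : X) :
    gfun (cutV V c) (cutV V ψ) k z = 0 := by
  unfold gfun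
  refine gf_region (V := fun k => ¬ V k) (fun k l _ hk hc => ?_) (fun k l _ hk => ?_) hV
  · exact absurd (by simp [cutV, hk]) hc
  · simp [cutV, hk]

omit [NormedSpace ℝ X] in
/-- (R2) a mark alone of its type in its cluster -/
theorem gfun_alone {k : Fin n} (h : ∀ l, l < k → ∀ᶠ z in 𝓝 x, c k l z = 0 ∧ ψ k l z = 0) :
    ∀ᶠ z in 𝓝 x, gfun c ψ k z = 0 := by
  have h1 : ∀ᶠ z in 𝓝 x, ∀ l, l < k → c k l z = 0 ∧ ψ k l z = 0 :=
    eventually_all.2 fun l => eventually_imp_distrib_left.2 fun hl => h l hl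
  filter_upwards [h1] with z hz
  unfold gfun
  refine gf_region (V := fun j => j = k) (fun j l hl hj hc => ?_) (fun j l hl hj => ?_) rfl
  · subst hj
    exact absurd (hz l hl).1 hc
  · subst hj
    exact (hz l hl).2

/-! ## (R1) bounds inside one cluster -/

/-- the data of the cluster at the point, in the direction `v` -/
def Data (c : Fin n → Fin n → X → ℝ) (ψ : Fin n → Fin n → X → H) (x v : X) (A A' C : ℝ)
    (k l : Fin n) : Prop :=
  (DifferentiableAt ℝ (c k l) x ∧ DifferentiableAt ℝ (ψ k l) x) ∧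
    (0 ≤ c k l x ∧ c k l x ≤ 1) ∧ ‖ψ k l x‖ ≤ A ∧
    |fderiv ℝ (c k l) x v| ≤ C ∧ ‖fderiv ℝ (ψ k l) x v‖ ≤ A'

theorem cutV_eq {α : Type*} [Zero α] {c : Fin n → Fin n → X → α} {k l : Fin n} (hk : V k)
    (hl : V l) : cutV V c k l = c k l := by
  funext z; simp [cutV, hk, hl]

theorem cutV_zero {α : Type*} [Zero α] {c : Fin n → Fin n → X → α} {k l : Fin n} (hl : ¬ V l) :
    cutV V c k l = fun _ => 0 := by
  funext z; simp [cutV, hl]

/-- **(R1)** bounds of `g_k` and of `D g_k (v)` from the data inside the cluster -/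
theorem norm_gfun_le_cluster {A A' C : ℝ} (hA : 0 ≤ A) (hA' : 0 ≤ A') (hC : 0 ≤ C)
    (hcl : Cluster c ψ V x)
    (h : ∀ k, V k → (∀ᶠ z in 𝓝 x, gfun c ψ k z = 0) ∨
      ∀ l, l < k → V l → Data c ψ x v A A' C k l) {k : Fin n} (hV : V k) :
    DifferentiableAt ℝ (gfun c ψ k) x ∧ ‖gfun c ψ k x‖ ≤ (n : ℝ) ^ 2 * A ∧
      ‖fderiv ℝ (gfun c ψ k) x v‖ ≤ (n : ℝ) ^ 2 * (2 * C * (n : ℝ) ^ 2 * A + A') := by
  have h1 := gfun_cluster hcl hV
  have h2 := norm_fderiv_gfun_le (c := cutV V c) (ψ := cutV V ψ) (x := x) (v := v) hA hA' hC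
    (fun j => by
      by_cases hj : V j
      · rcases h j hj with h3 | h3
        · left
          filter_upwards [h3, gfun_cluster hcl hj] with z hz hz'
          rw [← hz', hz]
        · right
          intro l hl
          by_cases hl' : V l
          · rw [cutV_eq hj hl', cutV_eq hj hl']
            exact h3 l hl hl'
          · rw [cutV_zero hl', cutV_zero hl']
            refine ⟨⟨differentiableAt_const _, differentiableAt_const _⟩, ⟨le_rfl, zero_le_one⟩,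
              ?_, ?_, ?_⟩
            · simpa using hA
            · simpa using hC
            · simpa using hA'
      · left
        exact Eventually.of_forall fun z => gfun_cutV_zero hj z) k
  have h3 : gfun c ψ k =ᶠ[𝓝 x] gfun (cutV V c) (cutV V ψ) k := h1
  refine ⟨h3.differentiableAt_iff.2 h2.1, ?_, ?_⟩
  · rw [h3.eq_of_nhds]; exact h2.2.1
  · rw [h3.fderiv_eq]; exact h2.2.2

/-! ## (R3) cut-off differences controlled on the support only -/

/-- the data for `ψ = c • δ`: near the point `c` vanishes, or `c` and `δ` are controlled -/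
def SData (c : Fin n → Fin n → X → ℝ) (δ : Fin n → Fin n → X → H) (x v : X) (A A1 C : ℝ)
    (k l : Fin n) : Prop :=
  (∀ᶠ z in 𝓝 x, c k l z = 0) ∨
    ((DifferentiableAt ℝ (c k l) x ∧ DifferentiableAt ℝ (δ k l) x) ∧
    (0 ≤ c k l x ∧ c k l x ≤ 1) ∧ ‖δ k l x‖ ≤ A ∧
    |fderiv ℝ (c k l) x v| ≤ C ∧ ‖fderiv ℝ (δ k l) x v‖ ≤ A1)

theorem SData.data {δ : Fin n → Fin n → X → H} {A A1 C : ℝ} (hA : 0 ≤ A) (hA1 : 0 ≤ A1)
    (hC : 0 ≤ C) {k l : Fin n} (hψ : ∀ᶠ z in 𝓝 x, ψ k l z = c k l z • δ k l z)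
    (h : SData c δ x v A A1 C k l) : Data c ψ x v A (C * A + A1) C k l := by
  rcases h with h0 | ⟨⟨h1, h2⟩, ⟨h3, h4⟩, h5, h6, h7⟩
  · have e1 : c k l =ᶠ[𝓝 x] fun _ => 0 := h0
    have e2 : ψ k l =ᶠ[𝓝 x] fun _ => 0 := by
      filter_upwards [hψ, h0] with z hz hz'
      rw [hz, hz', zero_smul]
    refine ⟨⟨e1.differentiableAt_iff.2 (differentiableAt_const _),
      e2.differentiableAt_iff.2 (differentiableAt_const _)⟩, ?_, ?_, ?_, ?_⟩
    · rw [e1.eq_of_nhds]; exact ⟨le_rfl, zero_le_one⟩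
    · rw [e2.eq_of_nhds]; simpa using hA
    · rw [e1.fderiv_eq]; simpa using hC
    · rw [e2.fderiv_eq]
      have : 0 ≤ C * A + A1 := by positivity
      simpa using this
  · have e2 : ψ k l =ᶠ[𝓝 x] fun z => c k l z • δ k l z := hψ
    have h8 : HasFDerivAt (fun z => c k l z • δ k l z) _ x := h1.hasFDerivAt.smul h2.hasFDerivAt
    refine ⟨⟨h1, e2.differentiableAt_iff.2 h8.differentiableAt⟩, ⟨h3, h4⟩, ?_, h6, ?_⟩
    · rw [e2.eq_of_nhds, norm_smul, Real.norm_of_nonneg h3]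
      calc c k l x * ‖δ k l x‖ ≤ 1 * A := by gcongr
        _ = A := one_mul A
    · rw [e2.fderiv_eq, h8.fderiv]
      simp only [_root_.add_apply, _root_.smul_apply, ContinuousLinearMap.smulRight_apply]
      calc ‖c k l x • (fderiv ℝ (δ k l) x) v + (fderiv ℝ (c k l) x) v • δ k l x‖
          ≤ ‖c k l x • (fderiv ℝ (δ k l) x) v‖ + ‖(fderiv ℝ (c k l) x) v • δ k l x‖ :=
            norm_add_le _ _
        _ ≤ 1 * A1 + C * A := by
            rw [norm_smul, norm_smul, Real.norm_of_nonneg h3, Real.norm_eq_abs]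
            gcongr
        _ = C * A + A1 := by ring

/-- **(R1) + (R3)**: the bounds in the form which the potentials deliver -/
theorem norm_gfun_le_support {δ : Fin n → Fin n → X → H} {A A1 C : ℝ} (hA : 0 ≤ A)
    (hA1 : 0 ≤ A1) (hC : 0 ≤ C)
    (hψ : ∀ k, V k → ∀ l, l < k → ∀ᶠ z in 𝓝 x, ψ k l z = c k l z • δ k l z)
    (hcl : ∀ k, V k → ∀ l, l < k → ¬ V l → ∀ᶠ z in 𝓝 x, c k l z = 0)
    (h : ∀ k, V k → (∀ᶠ z in 𝓝 x, gfun c ψ k z = 0) ∨
      ∀ l, l < k → V l → SData c δ x v A A1 C k l) {k : Fin n} (hV : V k) :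
    DifferentiableAt ℝ (gfun c ψ k) x ∧ ‖gfun c ψ k x‖ ≤ (n : ℝ) ^ 2 * A ∧
      ‖fderiv ℝ (gfun c ψ k) x v‖ ≤
        (n : ℝ) ^ 2 * ((2 * (n : ℝ) ^ 2 + 1) * C * A + A1) := by
  have h1 := norm_gfun_le_cluster (c := c) (ψ := ψ) (V := V) (x := x) (v := v) (A := A)
    (A' := C * A + A1) (C := C) hA (by positivity) hC
    (fun k hk l hl hl' => by
      filter_upwards [hψ k hk l hl, hcl k hk l hl hl'] with z hz hz'
      exact ⟨hz', by rw [hz, hz', zero_smul]⟩)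
    (fun j hj => by
      rcases h j hj with h3 | h3
      · exact Or.inl h3
      · exact Or.inr fun l hl hl' => (h3 l hl hl').data hA hA1 hC (hψ j hj l hl)) hV
  refine ⟨h1.1, h1.2.1, h1.2.2.trans (le_of_eq ?_)⟩
  ring

/-! ## (R4), (R5) limits along a filter -/

section Lim

variable {I : Type*} {F : Filter I}

/-- **(R4)** the collision part of a one-form in a direction tends to zero, with a factor `r` -/
theorem tendsto_dg {c : I → Fin n → Fin n → X → ℝ} {ψ δ : I → Fin n → Fin n → X → H}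
    {x v : I → X} {A A1 C r : I → ℝ} (hA : ∀ᶠ i in F, 0 ≤ A i) (hA1 : ∀ᶠ i in F, 0 ≤ A1 i)
    (hC : ∀ᶠ i in F, 0 ≤ C i) (hr : ∀ᶠ i in F, 0 ≤ r i)
    (hψ : ∀ᶠ i in F, ∀ k, V k → ∀ l, l < k → ∀ᶠ z in 𝓝 (x i), ψ i k l z = c i k l z • δ i k l z)
    (hcl : ∀ᶠ i in F, ∀ k, V k → ∀ l, l < k → ¬ V l → ∀ᶠ z in 𝓝 (x i), c i k l z = 0)
    (h : ∀ᶠ i in F, ∀ k, V k → (∀ᶠ z in 𝓝 (x i), gfun (c i) (ψ i) k z = 0) ∨
      ∀ l, l < k → V l → SData (c i) (δ i) (x i) (v i) (A i) (A1 i) (C i) k l)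
    (h1 : Tendsto (fun i => r i * (C i * A i)) F (𝓝 0))
    (h2 : Tendsto (fun i => r i * A1 i) F (𝓝 0)) {k : Fin n} (hV : V k) :
    Tendsto (fun i => r i • fderiv ℝ (gfun (c i) (ψ i) k) (x i) (v i)) F (𝓝 0) := by
  have h3 : Tendsto (fun i => (n : ℝ) ^ 2 * ((2 * (n : ℝ) ^ 2 + 1) * (r i * (C i * A i))
      + r i * A1 i)) F (𝓝 0) := by
    have := ((h1.const_mul (2 * (n : ℝ) ^ 2 + 1)).add h2).const_mul ((n : ℝ) ^ 2)
    simpa using this
  refine squeeze_zero_norm' ?_ h3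
  filter_upwards [hA, hA1, hC, hr, hψ, hcl, h] with i hA hA1 hC hr hψ hcl h
  have h4 := norm_gfun_le_support hA hA1 hC hψ hcl h hV
  rw [norm_smul, Real.norm_of_nonneg hr]
  calc r i * ‖fderiv ℝ (gfun (c i) (ψ i) k) (x i) (v i)‖
      ≤ r i * ((n : ℝ) ^ 2 * ((2 * (n : ℝ) ^ 2 + 1) * C i * A i + A1 i)) := by
        gcongr; exact h4.2.2
    _ = _ := by ring

/-- **(R5)** `theta_k` has the limit of `eta_k` -/
theorem tendsto_theta {c : I → Fin n → Fin n → X → ℝ} {ψ δ : I → Fin n → Fin n → X → H}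
    {η : I → Fin n → X → X →L[ℝ] H}
    {x v : I → X} {A A1 C r : I → ℝ} (hA : ∀ᶠ i in F, 0 ≤ A i) (hA1 : ∀ᶠ i in F, 0 ≤ A1 i)
    (hC : ∀ᶠ i in F, 0 ≤ C i) (hr : ∀ᶠ i in F, 0 ≤ r i)
    (hψ : ∀ᶠ i in F, ∀ k, V k → ∀ l, l < k → ∀ᶠ z in 𝓝 (x i), ψ i k l z = c i k l z • δ i k l z)
    (hcl : ∀ᶠ i in F, ∀ k, V k → ∀ l, l < k → ¬ V l → ∀ᶠ z in 𝓝 (x i), c i k l z = 0)
    (h : ∀ᶠ i in F, ∀ k, V k → (∀ᶠ z in 𝓝 (x i), gfun (c i) (ψ i) k z = 0) ∨
      ∀ l, l < k → V l → SData (c i) (δ i) (x i) (v i) (A i) (A1 i) (C i) k l)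
    (h1 : Tendsto (fun i => r i * (C i * A i)) F (𝓝 0))
    (h2 : Tendsto (fun i => r i * A1 i) F (𝓝 0)) {k : Fin n} (hV : V k) {L : H}
    (hη : Tendsto (fun i => r i • η i k (x i) (v i)) F (𝓝 L)) :
    Tendsto (fun i => r i • theta (η i) (c i) (ψ i) k (x i) (v i)) F (𝓝 L) := by
  have h3 := hη.add (tendsto_dg hA hA1 hC hr hψ hcl h h1 h2 hV)
  rw [add_zero] at h3
  refine h3.congr fun i => ?_
  rw [theta, _root_.add_apply, smul_add]

/-- two marks of one type in one cluster, rigid direction: the one-forms agree in the limit -/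
theorem tendsto_theta_sub {c : I → Fin n → Fin n → X → ℝ} {ψ δ : I → Fin n → Fin n → X → H}
    {η : I → Fin n → X → X →L[ℝ] H}
    {x v : I → X} {A A1 C r : I → ℝ} (hA : ∀ᶠ i in F, 0 ≤ A i) (hA1 : ∀ᶠ i in F, 0 ≤ A1 i)
    (hC : ∀ᶠ i in F, 0 ≤ C i) (hr : ∀ᶠ i in F, 0 ≤ r i)
    (hψ : ∀ᶠ i in F, ∀ k, V k → ∀ l, l < k → ∀ᶠ z in 𝓝 (x i), ψ i k l z = c i k l z • δ i k l z)
    (hcl : ∀ᶠ i in F, ∀ k, V k → ∀ l, l < k → ¬ V l → ∀ᶠ z in 𝓝 (x i), c i k l z = 0)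
    (h : ∀ᶠ i in F, ∀ k, V k → (∀ᶠ z in 𝓝 (x i), gfun (c i) (ψ i) k z = 0) ∨
      ∀ l, l < k → V l → SData (c i) (δ i) (x i) (v i) (A i) (A1 i) (C i) k l)
    (h1 : Tendsto (fun i => r i * (C i * A i)) F (𝓝 0))
    (h2 : Tendsto (fun i => r i * A1 i) F (𝓝 0)) {k l : Fin n} (hV : V k) (hVl : V l)
    (hη : Tendsto (fun i => r i • (η i k (x i) (v i) - η i l (x i) (v i))) F (𝓝 0)) :
    Tendsto (fun i => r i • (theta (η i) (c i) (ψ i) k (x i) (v i)
      - theta (η i) (c i) (ψ i) l (x i) (v i))) F (𝓝 0) := by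
  have h3 := (hη.add (tendsto_dg hA hA1 hC hr hψ hcl h h1 h2 hV)).sub
    (tendsto_dg hA hA1 hC hr hψ hcl h h1 h2 hVl)
  rw [add_zero, sub_zero] at h3
  refine h3.congr fun i => ?_
  rw [theta, theta, _root_.add_apply, _root_.add_apply, ← smul_add, ← smul_sub]
  congr 1
  abel

end Lim

/-! ## bounds of `theta` -/

/-- **the bound of `theta_k`** from the bound of `eta_k` -/
theorem norm_theta_le {η : Fin n → X → X →L[ℝ] H} {δ : Fin n → Fin n → X → H} {A A1 C B : ℝ}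
    (hA : 0 ≤ A) (hA1 : 0 ≤ A1) (hC : 0 ≤ C)
    (hψ : ∀ k, V k → ∀ l, l < k → ∀ᶠ z in 𝓝 x, ψ k l z = c k l z • δ k l z)
    (hcl : ∀ k, V k → ∀ l, l < k → ¬ V l → ∀ᶠ z in 𝓝 x, c k l z = 0)
    (h : ∀ k, V k → (∀ᶠ z in 𝓝 x, gfun c ψ k z = 0) ∨
      ∀ l, l < k → V l → SData c δ x v A A1 C k l) {k : Fin n} (hV : V k)
    (hη : ‖η k x v‖ ≤ B) :
    ‖theta η c ψ k x v‖ ≤ B + (n : ℝ) ^ 2 * ((2 * (n : ℝ) ^ 2 + 1) * C * A + A1) := by
  rw [theta, _root_.add_apply]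
  exact (norm_add_le _ _).trans (add_le_add hη (norm_gfun_le_support hA hA1 hC hψ hcl h hV).2.2)

/-- a mark alone of its type in its cluster: `theta = eta` near the point -/
theorem theta_alone {η : Fin n → X → X →L[ℝ] H} {k : Fin n}
    (h : ∀ l, l < k → ∀ᶠ z in 𝓝 x, c k l z = 0 ∧ ψ k l z = 0) :
    ∀ᶠ z in 𝓝 x, theta η c ψ k z = η k z :=
  theta_region (gfun_alone h)

end

end Vale.Agent.P273.H778
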