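import Vale.Agent.P273.H778.Rec
import Vale.Agent.P273.H578.CutG

/-!
# P273, (T2) of ASY0: the weighted bound of the collision recursion

`w k` bounds the cut off differences of the mark `k`; only the products (derivative of the cut-off)
times (weight) have to be small.
-/

set_option linter.unusedSectionVars false

open scoped ContDiff Topology
open Finset Function Filter

namespace Vale.Agent.P273.H778

open Vale.Agent.P273.H973 Vale.Agent.P273.H578

noncomputable section

/-- the constant of the values -/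
def Vw (n : ℕ) (K : ℝ) : ℝ := n * (K + 1) ^ n

/-- the constant of the derivatives -/
def Dw (n : ℕ) (K : ℝ) : ℝ := n ^ 2 * (2 * (K + 1) * Vw n K + 2)

section ell

variable {H : Type*} [NormedAddCommGroup H] [NormedSpace ℝ H]

/-- one line, values; inert entries allowed -/
theorem norm_stp_le' {c : ℕ → ℝ} {ψ G : ℕ → H} {k : ℕ} {M A : ℝ} (hM : 0 ≤ M) (hA : 0 ≤ A)
    (h : ∀ l < k, (c l = 0 ∧ ψ l = 0) ∨ ((0 ≤ c l ∧ c l ≤ 1) ∧ ‖ψ l‖ ≤ A ∧ ‖G l‖ ≤ M)) :
    ‖stp c ψ G k‖ ≤ M + k * A := by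
  induction k with
  | zero => simpa [stp] using hM
  | succ k ih =>
    have h0 := ih fun l hl => h l (by omega)
    rw [stp]
    rcases h k (by omega) with ⟨h1, h2⟩ | ⟨⟨h1, h2⟩, h3, h4⟩
    · rw [h1, h2, sub_zero, one_smul, zero_smul, sub_zero, add_zero]
      refine h0.trans ?_
      push_cast
      linarith
    · calc ‖(1 - c k) • stp c ψ G k + (c k • G k - ψ k)‖
          ≤ ‖(1 - c k) • stp c ψ G k‖ + (‖c k • G k‖ + ‖ψ k‖) :=
            (norm_add_le _ _).trans (add_le_add le_rfl (norm_sub_le _ _))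
        _ ≤ (1 - c k) * (M + k * A) + (c k * M + A) := by
            rw [norm_smul, norm_smul, Real.norm_of_nonneg (by linarith), Real.norm_of_nonneg h1]
            have h5 : (1 - c k) * ‖stp c ψ G k‖ ≤ (1 - c k) * (M + k * A) :=
              mul_le_mul_of_nonneg_left h0 (by linarith)
            have h6 : c k * ‖G k‖ ≤ c k * M := mul_le_mul_of_nonneg_left h4 h1
            linarith
        _ ≤ M + ((k + 1 : ℕ) : ℝ) * A := by
            push_cast
            have : 0 ≤ c k * (k * A) := by positivity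
            nlinarith

/-- one line, derivatives; inert entries allowed -/
theorem norm_dstp_le' {c c' : ℕ → ℝ} {ψ ψ' G G' : ℕ → H} {k : ℕ} {M' E1 E2 : ℝ} (hM' : 0 ≤ M')
    (h1 : 0 ≤ E1) (h2 : 0 ≤ E2)
    (h : ∀ l < k, (c l = 0 ∧ c' l = 0 ∧ ψ' l = 0) ∨ ((0 ≤ c l ∧ c l ≤ 1) ∧
      |c' l| * ‖stp c ψ G l‖ ≤ E1 ∧ |c' l| * ‖G l‖ ≤ E1 ∧ ‖ψ' l‖ ≤ E2 ∧ ‖G' l‖ ≤ M')) :
    ‖dstp c c' ψ ψ' G G' k‖ ≤ M' + k * (2 * E1 + E2) := by
  induction k with
  | zero => simpa [dstp] using hM'
  | succ k ih =>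
    have h0 := ih fun l hl => h l (by omega)
    rw [dstp]
    rcases h k (by omega) with ⟨e1, e2, e3⟩ | ⟨⟨e1, e2⟩, e3, e4, e5, e6⟩
    · rw [e1, e2, e3]
      simp only [sub_zero, one_smul, zero_smul, add_zero]
      refine h0.trans ?_
      push_cast
      linarith
    · calc ‖(1 - c k) • dstp c c' ψ ψ' G G' k - c' k • stp c ψ G k +
            (c k • G' k + c' k • G k - ψ' k)‖
          ≤ (‖(1 - c k) • dstp c c' ψ ψ' G G' k‖ + ‖c' k • stp c ψ G k‖) +
            ((‖c k • G' k‖ + ‖c' k • G k‖) + ‖ψ' k‖) :=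
            (norm_add_le _ _).trans (add_le_add (norm_sub_le _ _) ((norm_sub_le _ _).trans
              (add_le_add (norm_add_le _ _) le_rfl)))
        _ ≤ ((1 - c k) * (M' + k * (2 * E1 + E2)) + E1) + ((c k * M' + E1) + E2) := by
            rw [norm_smul, norm_smul, norm_smul, norm_smul, Real.norm_of_nonneg (by linarith),
              Real.norm_of_nonneg e1, Real.norm_eq_abs]
            have h5 : (1 - c k) * ‖dstp c c' ψ ψ' G G' k‖ ≤
                (1 - c k) * (M' + k * (2 * E1 + E2)) := mul_le_mul_of_nonneg_left h0 (by linarith)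
            have h6 : c k * ‖G' k‖ ≤ c k * M' := mul_le_mul_of_nonneg_left e6 e1
            linarith
        _ ≤ M' + ((k + 1 : ℕ) : ℝ) * (2 * E1 + E2) := by
            push_cast
            have : 0 ≤ c k * (k * (2 * E1 + E2)) := by positivity
            nlinarith

theorem Vw_nonneg {n : ℕ} {K : ℝ} (hK : 0 ≤ K) : 0 ≤ Vw n K := by unfold Vw; positivity

theorem Dw_nonneg {n : ℕ} {K : ℝ} (hK : 0 ≤ K) : 0 ≤ Dw n K := by
  have := Vw_nonneg (n := n) hK
  unfold Dw
  positivity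

/-- partial constant -/
theorem Vk_step {K : ℝ} (hK : 1 ≤ K) {k l : ℕ} (hl : l ≤ k) :
    K * (l * (K + 1) ^ l) + ((k : ℝ) + 1) ≤ ((k : ℝ) + 1) * (K + 1) ^ (k + 1) := by
  have h1 : (l : ℝ) * (K + 1) ^ l ≤ k * (K + 1) ^ k := by
    have e1 : (l : ℝ) ≤ k := by exact_mod_cast hl
    have e2 : (K + 1) ^ l ≤ (K + 1) ^ k := pow_le_pow_right₀ (by linarith) hl
    exact mul_le_mul e1 e2 (by positivity) (by positivity)
  have h2 : ((k : ℝ) + 1) ≤ (K + 1) ^ (k + 1) := by
    have e1 : ((k : ℝ) + 1) ≤ 2 ^ (k + 1) := by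
      have := Nat.lt_two_pow_self (n := k + 1)
      exact_mod_cast this.le
    exact e1.trans (pow_le_pow_left₀ (by norm_num) (by linarith) _)
  have h3 : 0 ≤ (K + 1) ^ k := by positivity
  calc K * (l * (K + 1) ^ l) + ((k : ℝ) + 1) ≤ K * (k * (K + 1) ^ k) + (K + 1) ^ (k + 1) := by
        have := mul_le_mul_of_nonneg_left h1 (by linarith : (0 : ℝ) ≤ K)
        linarith
    _ ≤ ((k : ℝ) + 1) * (K + 1) ^ (k + 1) := by
        rw [pow_succ]
        have : 0 ≤ (k : ℝ) * (K + 1) ^ k := by positivity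
        nlinarith

theorem Vk_le {K : ℝ} (hK : 1 ≤ K) {k n : ℕ} (h : k ≤ n) :
    (k : ℝ) * (K + 1) ^ k ≤ Vw n K := by
  unfold Vw
  have e1 : (k : ℝ) ≤ n := by exact_mod_cast h
  have e2 : (K + 1) ^ k ≤ (K + 1) ^ n := pow_le_pow_right₀ (by linarith) h
  exact mul_le_mul e1 e2 (by positivity) (by positivity)

/-- **weighted values** -/
theorem norm_gk_leW {c : ℕ → ℕ → ℝ} {ψ : ℕ → ℕ → H} {n : ℕ} {w : ℕ → ℝ} {K : ℝ} (hK : 1 ≤ K)
    (hw : ∀ k < n, 0 ≤ w k)
    (h : ∀ k < n, gk c ψ k = 0 ∨ ∀ l < k, (c k l = 0 ∧ ψ k l = 0) ∨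
      ((0 ≤ c k l ∧ c k l ≤ 1) ∧ ‖ψ k l‖ ≤ w k ∧ w l ≤ K * w k)) :
    ∀ k < n, ‖gk c ψ k‖ ≤ (k : ℝ) * (K + 1) ^ k * w k := by
  intro k
  induction k using Nat.strong_induction_on with
  | _ k ih =>
    intro hk
    have hwk := hw k hk
    rcases h k hk with h0 | h1
    · rw [h0, norm_zero]; positivity
    · rcases k with _ | k
      · simp [gk_eq, stp]
      rw [gk_eq]
      have h3 := norm_stp_le' (c := c (k + 1)) (ψ := ψ (k + 1)) (G := gk c ψ) (k := k + 1)
        (M := K * (k * (K + 1) ^ k) * w (k + 1)) (A := w (k + 1)) (by positivity) hwk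
        (fun l hl => by
          rcases h1 l hl with h2 | ⟨h2, h3, h4⟩
          · exact Or.inl h2
          · refine Or.inr ⟨h2, h3, ?_⟩
            have h5 := ih l hl (by omega)
            have hwl := hw l (by omega)
            calc ‖gk c ψ l‖ ≤ (l : ℝ) * (K + 1) ^ l * w l := h5
              _ ≤ (k * (K + 1) ^ k) * (K * w (k + 1)) := by
                  refine mul_le_mul ?_ h4 hwl (by positivity)
                  have e1 : (l : ℝ) ≤ k := by exact_mod_cast (by omega : l ≤ k)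
                  have e2 : (K + 1) ^ l ≤ (K + 1) ^ k :=
                    pow_le_pow_right₀ (by linarith) (by omega)
                  exact mul_le_mul e1 e2 (by positivity) (by positivity)
              _ = _ := by ring)
      refine h3.trans ?_
      have h6 := Vk_step hK (le_refl k)
      push_cast
      calc K * (k * (K + 1) ^ k) * w (k + 1) + ((k : ℝ) + 1) * w (k + 1)
          = (K * (k * (K + 1) ^ k) + ((k : ℝ) + 1)) * w (k + 1) := by ring
        _ ≤ _ := mul_le_mul_of_nonneg_right h6 hwk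

end ell

variable {X H : Type*} [NormedAddCommGroup X] [NormedSpace ℝ X]
  [NormedAddCommGroup H] [NormedSpace ℝ H]

/-- the weighted data of a pair at the point `x`, direction `v` -/
def DataW (c : X → ℝ) (ψ : X → H) (x v : X) (w w' K E : ℝ) : Prop :=
  (DifferentiableAt ℝ c x ∧ DifferentiableAt ℝ ψ x) ∧
    ((c x = 0 ∧ ψ x = 0 ∧ fderiv ℝ c x v = 0 ∧ fderiv ℝ ψ x v = 0) ∨
      ((0 ≤ c x ∧ c x ≤ 1) ∧ ‖ψ x‖ ≤ w ∧ w' ≤ K * w ∧ |fderiv ℝ c x v| * w ≤ E ∧
        ‖fderiv ℝ ψ x v‖ ≤ E))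

/-- **weighted derivatives** -/
theorem norm_fderiv_gk_leW {c : ℕ → ℕ → X → ℝ} {ψ : ℕ → ℕ → X → H} {n : ℕ} {x v : X}
    {w : ℕ → ℝ} {K E : ℝ} (hK : 1 ≤ K) (hE : 0 ≤ E) (hw : ∀ k < n, 0 ≤ w k)
    (h : ∀ k < n, (∀ᶠ z in 𝓝 x, gk (fun k l => c k l z) (fun k l => ψ k l z) k = 0) ∨
      ∀ l < k, DataW (c k l) (ψ k l) x v (w k) (w l) K E) :
    ∀ k < n, DifferentiableAt ℝ (fun z => gk (fun k l => c k l z) (fun k l => ψ k l z) k) x ∧
      ‖gk (fun k l => c k l x) (fun k l => ψ k l x) k‖ ≤ Vw n K * w k ∧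
      ‖fderiv ℝ (fun z => gk (fun k l => c k l z) (fun k l => ψ k l z) k) x v‖ ≤
        (k : ℝ) * (n * (2 * (K + 1) * Vw n K + 2)) * E := by
  have hval : ∀ k < n, ‖gk (fun k l => c k l x) (fun k l => ψ k l x) k‖ ≤
      (k : ℝ) * (K + 1) ^ k * w k := by
    apply norm_gk_leW hK hw
    intro k hk
    rcases h k hk with h0 | h1
    · exact Or.inl h0.self_of_nhds
    · refine Or.inr fun l hl => ?_
      rcases (h1 l hl).2 with ⟨e1, e2, -, -⟩ | ⟨e1, e2, e3, -, -⟩
      · exact Or.inl ⟨e1, e2⟩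
      · exact Or.inr ⟨e1, e2, e3⟩
  have hV0 : 0 ≤ Vw n K := Vw_nonneg (by linarith)
  have hval' : ∀ k < n, ‖gk (fun k l => c k l x) (fun k l => ψ k l x) k‖ ≤ Vw n K * w k :=
    fun k hk => (hval k hk).trans (mul_le_mul_of_nonneg_right (Vk_le hK hk.le) (hw k hk))
  intro k
  induction k using Nat.strong_induction_on with
  | _ k ih =>
    intro hk
    refine ⟨?_, hval' k hk, ?_⟩
    · rcases h k hk with h0 | h1
      · exact ((hasFDerivAt_const (0 : H) x).congr_of_eventuallyEq h0).differentiableAt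
      · have h3 := hasFDerivAt_stp (c := c k) (ψ := ψ k)
          (G := fun l z => gk (fun k l => c k l z) (fun k l => ψ k l z) l) (k := k) (x := x)
          (fun l hl => (h1 l hl).1.1) (fun l hl => (h1 l hl).1.2)
          (fun l hl => (ih l hl (by omega)).1)
        have h4 : (fun z => gk (fun k l => c k l z) (fun k l => ψ k l z) k) = fun z =>
            stp (fun l => c k l z) (fun l => ψ k l z)
              (fun l => gk (fun k l => c k l z) (fun k l => ψ k l z) l) k := by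
          funext z
          exact gk_eq _ _ _
        rw [h4]
        exact h3.1
    · rcases h k hk with h0 | h1
      · have h2 : HasFDerivAt (fun z => gk (fun k l => c k l z) (fun k l => ψ k l z) k)
            (0 : X →L[ℝ] H) x := (hasFDerivAt_const (0 : H) x).congr_of_eventuallyEq h0
        rw [h2.fderiv]
        simp only [_root_.zero_apply, norm_zero]
        positivity
      · have h3 := hasFDerivAt_stp (c := c k) (ψ := ψ k)
          (G := fun l z => gk (fun k l => c k l z) (fun k l => ψ k l z) l) (k := k) (x := x)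
          (fun l hl => (h1 l hl).1.1) (fun l hl => (h1 l hl).1.2)
          (fun l hl => (ih l hl (by omega)).1)
        have h4 : (fun z => gk (fun k l => c k l z) (fun k l => ψ k l z) k) = fun z =>
            stp (fun l => c k l z) (fun l => ψ k l z)
              (fun l => gk (fun k l => c k l z) (fun k l => ψ k l z) l) k := by
          funext z
          exact gk_eq _ _ _
        rw [h4, h3.2 v]
        rcases k with _ | k
        · simp [dstp]
        have hwk := hw (k + 1) hk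
        have hS : ∀ l ≤ k, ‖stp (fun l => c (k + 1) l x) (fun l => ψ (k + 1) l x)
            (fun l => gk (fun k l => c k l x) (fun k l => ψ k l x) l) l‖
              ≤ (K + 1) * Vw n K * w (k + 1) := by
          intro l hl
          have e1 := norm_stp_le' (c := fun l => c (k + 1) l x) (ψ := fun l => ψ (k + 1) l x)
            (G := fun l => gk (fun k l => c k l x) (fun k l => ψ k l x) l) (k := l)
            (M := K * Vw n K * w (k + 1)) (A := w (k + 1)) (by positivity) hwk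
            (fun j hj => by
              rcases (h1 j (by omega)).2 with ⟨e1, e2, -, -⟩ | ⟨e1, e2, e3, -, -⟩
              · exact Or.inl ⟨e1, e2⟩
              · refine Or.inr ⟨e1, e2, (hval' j (by omega)).trans ?_⟩
                calc Vw n K * w j ≤ Vw n K * (K * w (k + 1)) :=
                      mul_le_mul_of_nonneg_left e3 hV0
                  _ = _ := by ring)
          refine e1.trans ?_
          have e2 : (l : ℝ) ≤ Vw n K := by
            have e3 : (l : ℝ) ≤ (n : ℝ) := by exact_mod_cast (by omega : l ≤ n)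
            refine e3.trans ?_
            unfold Vw
            exact le_mul_of_one_le_right (Nat.cast_nonneg _) (one_le_pow₀ (by linarith))
          have e4 := mul_le_mul_of_nonneg_right e2 hwk
          linarith
        have hD := norm_dstp_le' (c := fun l => c (k + 1) l x)
          (c' := fun l => fderiv ℝ (c (k + 1) l) x v) (ψ := fun l => ψ (k + 1) l x)
          (ψ' := fun l => fderiv ℝ (ψ (k + 1) l) x v)
          (G := fun l => gk (fun k l => c k l x) (fun k l => ψ k l x) l)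
          (G' := fun l => fderiv ℝ (fun z => gk (fun k l => c k l z) (fun k l => ψ k l z) l) x v)
          (k := k + 1) (M' := (k : ℝ) * (n * (2 * (K + 1) * Vw n K + 2)) * E)
          (E1 := (K + 1) * Vw n K * E) (E2 := E) (by positivity) (by positivity) hE
          (fun l hl => by
            rcases (h1 l hl).2 with ⟨e1, e2, e3, e4⟩ | ⟨e1, e2, e3, e4, e5⟩
            · exact Or.inl ⟨e1, e3, e4⟩
            · refine Or.inr ⟨e1, ?_, ?_, e5, ?_⟩
              · calc |fderiv ℝ (c (k + 1) l) x v| * _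
                    ≤ |fderiv ℝ (c (k + 1) l) x v| * ((K + 1) * Vw n K * w (k + 1)) :=
                      mul_le_mul_of_nonneg_left (hS l (by omega)) (abs_nonneg _)
                  _ = (K + 1) * Vw n K * (|fderiv ℝ (c (k + 1) l) x v| * w (k + 1)) := by ring
                  _ ≤ _ := mul_le_mul_of_nonneg_left e4 (by positivity)
              · calc |fderiv ℝ (c (k + 1) l) x v| * _
                    ≤ |fderiv ℝ (c (k + 1) l) x v| * ((K + 1) * Vw n K * w (k + 1)) := by
                      refine mul_le_mul_of_nonneg_left ((hval' l (by omega)).trans ?_)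
                        (abs_nonneg _)
                      calc Vw n K * w l ≤ Vw n K * (K * w (k + 1)) :=
                            mul_le_mul_of_nonneg_left e3 hV0
                        _ ≤ Vw n K * ((K + 1) * w (k + 1)) := by gcongr; linarith
                        _ = _ := by ring
                  _ = (K + 1) * Vw n K * (|fderiv ℝ (c (k + 1) l) x v| * w (k + 1)) := by ring
                  _ ≤ _ := mul_le_mul_of_nonneg_left e4 (by positivity)
              · refine (ih l hl (by omega)).2.2.trans ?_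
                have e6 : (l : ℝ) ≤ k := by exact_mod_cast (by omega : l ≤ k)
                gcongr)
        refine hD.trans ?_
        have e7 : ((k + 1 : ℕ) : ℝ) * (2 * ((K + 1) * Vw n K * E) + E) ≤
            (n * (2 * (K + 1) * Vw n K + 2)) * E := by
          have e8 : ((k + 1 : ℕ) : ℝ) ≤ n := by exact_mod_cast hk.le
          calc ((k + 1 : ℕ) : ℝ) * (2 * ((K + 1) * Vw n K * E) + E)
              ≤ n * (2 * ((K + 1) * Vw n K * E) + E) :=
                mul_le_mul_of_nonneg_right e8 (by positivity)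
            _ ≤ n * (2 * ((K + 1) * Vw n K * E) + 2 * E) := by gcongr; linarith
            _ = _ := by ring
        calc (k : ℝ) * (n * (2 * (K + 1) * Vw n K + 2)) * E +
              ((k + 1 : ℕ) : ℝ) * (2 * ((K + 1) * Vw n K * E) + E)
            ≤ (k : ℝ) * (n * (2 * (K + 1) * Vw n K + 2)) * E +
              (n * (2 * (K + 1) * Vw n K + 2)) * E := by linarith
          _ = _ := by push_cast; ring

/-- **WEIGHTED BOUNDS over Fin n** -/
theorem norm_gfun_leW {n : ℕ} {c : Fin n → Fin n → X → ℝ} {ψ : Fin n → Fin n → X → H}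
    {x v : X} {w : Fin n → ℝ} {K E : ℝ} (hK : 1 ≤ K) (hE : 0 ≤ E) (hw : ∀ k, 0 ≤ w k)
    (h : ∀ k, (∀ᶠ z in 𝓝 x, gfun c ψ k z = 0) ∨
      ∀ l, l < k → DataW (c k l) (ψ k l) x v (w k) (w l) K E) (k : Fin n) :
    DifferentiableAt ℝ (gfun c ψ k) x ∧ ‖gfun c ψ k x‖ ≤ Vw n K * w k ∧
      ‖fderiv ℝ (gfun c ψ k) x v‖ ≤ Dw n K * E := by
  have hfun : ∀ k : Fin n, gfun c ψ k = fun z => gk (fun k l => ex (fun _ => 0) c k l z)
      (fun k l => ex (fun _ => 0) ψ k l z) k := fun k => by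
    funext z
    exact gfun_eq _ _ _ _
  let w' : ℕ → ℝ := fun k => if h : k < n then w ⟨k, h⟩ else 0
  have hw' : ∀ (k : ℕ) (hk : k < n), w' k = w ⟨k, hk⟩ := fun k hk => dif_pos hk
  have h1 := norm_fderiv_gk_leW (c := ex (fun _ => (0 : ℝ)) c) (ψ := ex (fun _ => (0 : H)) ψ)
    (n := n) (x := x) (v := v) (w := w') (K := K) (E := E) hK hE
    (fun k hk => by rw [hw' k hk]; exact hw _) (fun k hk => by
      rcases h ⟨k, hk⟩ with h0 | h1
      · left
        rw [hfun] at h0
        exact h0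
      · right
        intro l hl
        rw [ex_apply _ _ hk (lt_trans hl hk), ex_apply _ _ hk (lt_trans hl hk), hw' k hk,
          hw' l (lt_trans hl hk)]
        exact h1 _ hl) k k.2
  rw [hw' k k.2] at h1
  refine ⟨?_, ?_, ?_⟩
  · rw [hfun]; exact h1.1
  · rw [hfun]; exact h1.2.1
  · rw [hfun]
    refine h1.2.2.trans ?_
    unfold Dw
    have h3 : 0 ≤ Vw n K := Vw_nonneg (by linarith)
    have e8 : ((k : ℕ) : ℝ) ≤ n := by exact_mod_cast k.2.le
    calc ((k : ℕ) : ℝ) * (n * (2 * (K + 1) * Vw n K + 2)) * E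
        ≤ n * (n * (2 * (K + 1) * Vw n K + 2)) * E := by gcongr
      _ = _ := by ring

/-! ### helper578's tables -/

section tables

variable {V : Type*} [NormedAddCommGroup V] [NormedSpace ℝ V] {n : ℕ}
  {b : X → Fin 6 → ℂ}
  {P : X → Fin n → ℂ × ℂ} {a : Fin n → Prop} {e : X} {W : Set (Fin 6 → ℂ)}
  {η : (Fin 6 → ℂ) → ℂ → ℂ → ((Fin 6 → ℂ) × ℂ →L[ℝ] V)}

/-- the cut-off of two marks that are not near: value and derivative vanish -/
theorem chiT_far (hb : ContDiffAt ℝ ∞ b e) (hP : ∀ k, a k → ContDiffAt ℝ ∞ (P · k) e)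
    (hPt : ∀ k, a k → Pt (b e) (P e k)) {k l : Fin n}
    (h : ¬ (a k ∧ a l ∧ Nr (rad k) (b e) (P e k) (P e l))) :
    chiT a (b e) (P e) k l = 0 ∧ fderiv ℝ (fun e => chiT a (b e) (P e) k l) e = 0 := by
  unfold chiT
  by_cases hkl : a k ∧ a l
  · simp only [if_pos hkl]
    have hN : ¬ Nr (rad k) (b e) (P e k) (P e l) := fun h' => h ⟨hkl.1, hkl.2, h'⟩
    refine ⟨?_, fderiv_cut_far hb (hP k hkl.1) (hP l hkl.2) (hPt k hkl.1) (hPt l hkl.2)
      (rad_pos k) (small_rad2 _) hN⟩
    by_contra h0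
    exact hN (nr_of_cut (rad_pos k) (hPt k hkl.1).off h0)
  · simp only [if_neg hkl]
    exact ⟨trivial, fderiv_const_apply _⟩

/-- the cut off difference of two marks that are not near: value and derivative vanish -/
theorem psiT_far [CompleteSpace V] (hη : SCl W η) (hW : IsOpen W) (hbW : b e ∈ W)
    (hb : ContDiffAt ℝ ∞ b e) (hP : ∀ k, a k → ContDiffAt ℝ ∞ (P · k) e)
    (hPt : ∀ k, a k → ∀ᶠ e' in 𝓝 e, Pt (b e') (P e' k)) {k l : Fin n}
    (h : ¬ (a k ∧ a l ∧ Nr (rad k) (b e) (P e k) (P e l))) :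
    psiT η a (b e) (P e) k l = 0 ∧ fderiv ℝ (fun e => psiT η a (b e) (P e) k l) e = 0 := by
  have hPt' : ∀ k, a k → Pt (b e) (P e k) := fun k hk => (hPt k hk).self_of_nhds
  have h1 := chiT_far hb hP hPt' h
  refine ⟨?_, ?_⟩
  · unfold psiT
    rw [h1.1, zero_smul]
  · unfold psiT chiT
    by_cases hkl : a k ∧ a l
    · simp only [if_pos hkl]
      have h2 := hasFDerivAt_psi hη hW hbW hb (hP k hkl.1) (hP l hkl.2) (hPt k hkl.1)
        (hPt' l hkl.2) (rad_pos k) (small_rad2 _)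
      rw [h2.fderiv]
      have h3 := h1.1
      have h4 := h1.2
      unfold chiT at h3 h4
      simp only [if_pos hkl] at h3 h4
      rw [h3, h4]
      ext u
      simp
    · simp only [if_neg hkl, zero_smul]
      exact fderiv_const_apply _

/-- **THE WEIGHTED BOUND OF THE RECURSION for the tables of helper578.** -/
theorem gfunT_boundC [CompleteSpace V] (hη : SCl W η) (hW : IsOpen W) (hbW : b e ∈ W)
    (hb : ContDiffAt ℝ ∞ b e) (hP : ∀ k, a k → ContDiffAt ℝ ∞ (P · k) e)
    (hPt : ∀ k, a k → ∀ᶠ e' in 𝓝 e, Pt (b e') (P e' k)) {v : X} {w : Fin n → ℝ} {K E : ℝ}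
    (hK : 1 ≤ K) (hE : 0 ≤ E) (hw : ∀ k, 0 ≤ w k)
    (h : ∀ k, (∀ᶠ z in 𝓝 e, gfun (fun k l e => chiT a (b e) (P e) k l)
        (fun k l e => psiT η a (b e) (P e) k l) k z = 0) ∨ ∀ l, l < k → a k → a l →
      Nr (rad k) (b e) (P e k) (P e l) → ‖del η (b e) (P e k) (P e l)‖ ≤ w k ∧ w l ≤ K * w k ∧
        ‖pb η b (P · k) e v - pb η b (P · l) e v‖ ≤ E ∧
        |fderiv ℝ (fun e => chiT a (b e) (P e) k l) e v| * w k ≤ E) (k : Fin n) :
    DifferentiableAt ℝ (gfun (fun k l e => chiT a (b e) (P e) k l)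
        (fun k l e => psiT η a (b e) (P e) k l) k) e ∧
      ‖gfun (fun k l e => chiT a (b e) (P e) k l)
        (fun k l e => psiT η a (b e) (P e) k l) k e‖ ≤ Vw n K * w k ∧
      ‖fderiv ℝ (gfun (fun k l e => chiT a (b e) (P e) k l)
        (fun k l e => psiT η a (b e) (P e) k l) k) e v‖ ≤ Dw n K * (2 * E) := by
  have hPt' : ∀ k, a k → Pt (b e) (P e k) := fun k hk => (hPt k hk).self_of_nhds
  refine norm_gfun_leW hK (by positivity) hw (fun k => ?_) k
  rcases h k with h0 | h1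
  · exact Or.inl h0
  right
  intro l hlk
  refine ⟨⟨(contDiffAt_chiT hb hP hPt' k l).differentiableAt (by simp),
    (contDiffAt_psiT hη hW hbW hb hP hPt k l).differentiableAt (by simp)⟩, ?_⟩
  by_cases hN : a k ∧ a l ∧ Nr (rad k) (b e) (P e k) (P e l)
  · obtain ⟨hk, hl, hN⟩ := hN
    obtain ⟨e1, e2, e3, e4⟩ := h1 l hlk hk hl hN
    refine Or.inr ⟨⟨chiT_nonneg _ _ _ _ _, chiT_le_one _ _ _ _ _⟩, ?_, e2, ?_, ?_⟩
    · show ‖chiT a (b e) (P e) k l • del η (b e) (P e k) (P e l)‖ ≤ w k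
      rw [norm_smul, Real.norm_of_nonneg (chiT_nonneg _ _ _ _ _)]
      exact (mul_le_of_le_one_left (norm_nonneg _) (chiT_le_one _ _ _ _ _)).trans e1
    · refine e4.trans ?_
      linarith
    · show ‖fderiv ℝ (fun e => psiT η a (b e) (P e) k l) e v‖ ≤ _
      unfold psiT chiT
      unfold chiT at e4
      simp only [if_pos (And.intro hk hl)] at e4 ⊢
      rw [(hasFDerivAt_psi hη hW hbW hb (hP k hk) (hP l hl) (hPt k hk) (hPt' l hl)
        (rad_pos k) (small_rad2 _)).fderiv]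
      simp only [_root_.add_apply, _root_.smul_apply, _root_.sub_apply,
        ContinuousLinearMap.smulRight_apply]
      calc _ ≤ ‖cut (rad k) (b e) (P e k) (P e l) • (pb η b (P · k) e v - pb η b (P · l) e v)‖ +
            ‖fderiv ℝ (fun e => cut (rad k) (b e) (P e k) (P e l)) e v •
              del η (b e) (P e k) (P e l)‖ := norm_add_le _ _
        _ ≤ E + E := by
            refine add_le_add ?_ ?_
            · rw [norm_smul, Real.norm_of_nonneg (cut_nonneg _ _ _ _)]
              exact (mul_le_of_le_one_left (norm_nonneg _) (cut_le_one _ _ _ _)).trans e3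
            · rw [norm_smul, Real.norm_eq_abs]
              exact (mul_le_mul_of_nonneg_left e1 (abs_nonneg _)).trans e4
        _ = _ := by ring
  · obtain ⟨f1, f2⟩ := chiT_far hb hP hPt' hN
    obtain ⟨f3, f4⟩ := psiT_far hη hW hbW hb hP hPt hN
    refine Or.inl ⟨f1, f3, ?_, ?_⟩
    · rw [f2]; rfl
    · rw [f4]; rfl

/-- **the same with the logarithmic derivatives `LogN`** (helper578, helper738) -/
theorem gfunT_boundW [CompleteSpace V] (hη : SCl W η) (hW : IsOpen W) (hbW : b e ∈ W)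
    (hb : ContDiffAt ℝ ∞ b e) (hP : ∀ k, a k → ContDiffAt ℝ ∞ (P · k) e)
    (hPt : ∀ k, a k → ∀ᶠ e' in 𝓝 e, Pt (b e') (P e' k)) {v : X} {w : Fin n → ℝ} {K E : ℝ}
    (hK : 1 ≤ K) (hE : 0 ≤ E) (hw : ∀ k, 0 ≤ w k)
    (h : ∀ k, (∀ᶠ z in 𝓝 e, gfun (fun k l e => chiT a (b e) (P e) k l)
        (fun k l e => psiT η a (b e) (P e) k l) k z = 0) ∨ ∀ l, l < k → a k → a l →
      Nr (rad k) (b e) (P e k) (P e l) → ‖del η (b e) (P e k) (P e l)‖ ≤ w k ∧ w l ≤ K * w k ∧
        ‖pb η b (P · k) e v - pb η b (P · l) e v‖ ≤ E ∧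
        ∃ (ζ : ℂ) (ρ : ℝ), 0 ≤ ρ ∧ LogN b (P · k) e v ζ ρ ∧ LogN b (P · l) e v ζ ρ ∧
          ρ * w k ≤ E) (k : Fin n) :
    DifferentiableAt ℝ (gfun (fun k l e => chiT a (b e) (P e) k l)
        (fun k l e => psiT η a (b e) (P e) k l) k) e ∧
      ‖gfun (fun k l e => chiT a (b e) (P e) k l)
        (fun k l e => psiT η a (b e) (P e) k l) k e‖ ≤ Vw n K * w k ∧
      ‖fderiv ℝ (gfun (fun k l e => chiT a (b e) (P e) k l)
        (fun k l e => psiT η a (b e) (P e) k l) k) e v‖ ≤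
          Dw n K * (2 * ((1 + Kn n) * E)) := by
  have hKn := Kn_pos n
  have hPt' : ∀ k, a k → Pt (b e) (P e k) := fun k hk => (hPt k hk).self_of_nhds
  refine gfunT_boundC hη hW hbW hb hP hPt hK (by positivity) hw (fun k => ?_) k
  rcases h k with h0 | h1
  · exact Or.inl h0
  right
  intro l hlk hk hl hN
  obtain ⟨e1, e2, e3, ζ, ρ, hρ, e4, e5, e6⟩ := h1 l hlk hk hl hN
  refine ⟨e1, e2, e3.trans (by nlinarith), ?_⟩
  have h2 := abs_fderiv_chiT_le (a := a) (k := k) (l := l) hb hP hPt' hρ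
    (fun _ _ _ => (⟨e4, e5⟩ : LogN b (P · k) e v ζ ρ ∧ LogN b (P · l) e v ζ ρ))
  calc |fderiv ℝ (fun e => chiT a (b e) (P e) k l) e v| * w k ≤ Kn n * ρ * w k :=
        mul_le_mul_of_nonneg_right h2 (hw k)
    _ = Kn n * (ρ * w k) := by ring
    _ ≤ Kn n * E := mul_le_mul_of_nonneg_left e6 hKn.le
    _ ≤ (1 + Kn n) * E := by nlinarith

/-- the constant of the limit version -/
def Kw (n : ℕ) : ℝ := Dw n 1 * (2 * (1 + Kn n))

/-- **THE LIMIT VERSION**: families along a filter `F`, a factor `r i`, one error `τ i → 0`.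
For every mark `k`, eventually either the recursion is trivial near the point or for every near
mark `l < k`: `‖del‖ ≤ A`, `r ‖pb_k v - pb_l v‖ ≤ τ`, `r ρ ≤ τ` with `LogN` of both marks. -/
theorem tendsto_dgT {I : Type*} {F : Filter I} [CompleteSpace V] {b : I → X → Fin 6 → ℂ}
    {P : I → X → Fin n → ℂ × ℂ} {a : I → Fin n → Prop} {e v : I → X} {W : Set (Fin 6 → ℂ)}
    {η : (Fin 6 → ℂ) → ℂ → ℂ → ((Fin 6 → ℂ) × ℂ →L[ℝ] V)} (hη : SCl W η) (hW : IsOpen W)
    (hbW : ∀ᶠ i in F, b i (e i) ∈ W) (hb : ∀ᶠ i in F, ContDiffAt ℝ ∞ (b i) (e i))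
    (hP : ∀ᶠ i in F, ∀ k, a i k → ContDiffAt ℝ ∞ (P i · k) (e i))
    (hPt : ∀ᶠ i in F, ∀ k, a i k → ∀ᶠ e' in 𝓝 (e i), Pt (b i e') (P i e' k))
    {A : ℝ} {r τ : I → ℝ} (hA : 0 ≤ A) (hr : ∀ᶠ i in F, 0 < r i) (hτ : Tendsto τ F (𝓝 0))
    (h : ∀ᶠ i in F, ∀ k, (∀ᶠ z in 𝓝 (e i), gfun (fun k l e => chiT (a i) (b i e) (P i e) k l)
        (fun k l e => psiT η (a i) (b i e) (P i e) k l) k z = 0) ∨ ∀ l, l < k → a i k → a i l →
      Nr (rad k) (b i (e i)) (P i (e i) k) (P i (e i) l) →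
        ‖del η (b i (e i)) (P i (e i) k) (P i (e i) l)‖ ≤ A ∧
        r i * ‖pb η (b i) (P i · k) (e i) (v i) - pb η (b i) (P i · l) (e i) (v i)‖ ≤ τ i ∧
        ∃ (ζ : ℂ) (ρ : ℝ), 0 ≤ ρ ∧ LogN (b i) (P i · k) (e i) (v i) ζ ρ ∧
          LogN (b i) (P i · l) (e i) (v i) ζ ρ ∧ r i * ρ ≤ τ i) (k : Fin n) :
    Tendsto (fun i => r i • fderiv ℝ (gfun (fun k l e => chiT (a i) (b i e) (P i e) k l)
        (fun k l e => psiT η (a i) (b i e) (P i e) k l) k) (e i) (v i)) F (𝓝 0) := by
  have h3 : Tendsto (fun i => Dw n 1 * (2 * ((1 + Kn n) * ((1 + A) * |τ i|)))) F (𝓝 0) := by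
    have := ((((hτ.abs).const_mul (1 + A)).const_mul (1 + Kn n)).const_mul 2).const_mul (Dw n 1)
    simpa using this
  refine squeeze_zero_norm' ?_ h3
  filter_upwards [hbW, hb, hP, hPt, hr, h] with i hbW hb hP hPt hr h
  have hKn := Kn_pos n
  have h4 := (gfunT_boundW (a := a i) (b := b i) (P := P i) (e := e i) (v := v i)
    (w := fun _ => A) (K := 1) (E := (1 + A) * |τ i| / r i) hη hW hbW hb hP hPt le_rfl
    (by positivity) (fun _ => hA) (fun k => by
      rcases h k with h0 | h1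
      · exact Or.inl h0
      · refine Or.inr fun l hlk hk hl hN => ?_
        obtain ⟨e1, e2, ζ, ρ, hρ, e4, e5, e6⟩ := h1 l hlk hk hl hN
        refine ⟨e1, by rw [one_mul], ?_, ζ, ρ, hρ, e4, e5, ?_⟩
        · rw [le_div_iff₀ hr, mul_comm]
          refine e2.trans ((le_abs_self _).trans ?_)
          exact le_mul_of_one_le_left (abs_nonneg _) (by linarith)
        · rw [le_div_iff₀ hr]
          have e7 : r i * ρ ≤ |τ i| := e6.trans (le_abs_self _)
          calc ρ * A * r i = A * (r i * ρ) := by ring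
            _ ≤ A * |τ i| := mul_le_mul_of_nonneg_left e7 hA
            _ ≤ (1 + A) * |τ i| := by nlinarith [abs_nonneg (τ i)]) k).2.2
  rw [norm_smul, Real.norm_of_nonneg hr.le]
  calc _ ≤ r i * (Dw n 1 * (2 * ((1 + Kn n) * ((1 + A) * |τ i| / r i)))) :=
        mul_le_mul_of_nonneg_left h4 hr.le
    _ = _ := by
        field_simp

end tables

end

end Vale.Agent.P273.H778
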