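import Vale.Agent.P273.H778.T2Defs

/-!
# P273, (T2) of ASY0: one bound of the leg of the gauge in one direction

`leg_bound`: legs of the one mark forms at most `E`, weights `w` of the differences,
`ρ w ≤ E` on near pairs ⇒ the leg of the gauge is at most `CL K * E`.
-/

noncomputable section

namespace Vale.Agent.P273.H778

open Set Filter H681 H95 H732 H562 H973 H578 H803
open scoped Topology ContDiff

/-- the legs of the gauge (`leg (gaugeOf O)`) -/
def lgT (O : One) : LegF := fun R m S j ξ p =>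
  (th O j ξ S (posE R m p) (shE R m S p)).comp (fderiv ℝ (posE R m) p)

/-- the constant -/
def CL (K : ℝ) : ℝ := 1 + Dw 7 K * (2 * ((1 + Kn 7) * 2))

variable {O : One} {R : H95.Region} {m : ∀ k, Fin (R.n k + 1)} {S : L → Bool} {p : Co R m}
  {ξ : Fin 6 → ℝ} {t : Bool} {v : Co R m} {E K : ℝ} {w : Fin 7 → ℝ}

theorem leg_bound (hB : Brd S (posE R m) (shE R m S) p) (hξ : IsCl ξ) (hE : 0 ≤ E)
    (hK : 1 ≤ K) (hw : ∀ k, 0 ≤ w k)
    (hP : ∀ l : Fin 7, |lgP O R m S (l, t) ξ p v| ≤ E)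
    (h : ∀ k, (∀ᶠ q in 𝓝 p, gM O ξ R m S t p k q = 0) ∨
      ∀ l, l < k → fin S t (posE R m p) k → fin S t (posE R m p) l → NrM R m S p t k l →
        |del (etx O ξ) (bM R m p) (PMt R m S t k p) (PMt R m S t l p)| ≤ w k ∧
        w l ≤ K * w k ∧
        ∃ (ζ : ℂ) (ρ : ℝ), 0 ≤ ρ ∧ LogN (bM R m) (PMt R m S t k) p v ζ ρ ∧
          LogN (bM R m) (PMt R m S t l) p v ζ ρ ∧ ρ * w k ≤ E) (k : Fin 7) :
    |lgT O R m S (k, t) ξ p v| ≤ CL K * E := by
  have h1 := (gfunT_boundW (a := fin S t (posE R m p)) (b := fun q => (posE R m q).1)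
    (P := PX S t (posE R m) (shE R m S)) (n := 7) (w := w) (K := K) (E := 2 * E) (v := v)
    (scl_etx O hξ) H401.isOpen_XX hB.mem hB.contDiffAt_b (fun _ hm => hB.contDiffAt_PX hm)
    (fun _ hm => hB.pt hm) hK (by positivity) hw (fun k => by
      rcases h k with h0 | h1
      · exact Or.inl h0
      · refine Or.inr fun l hlk hk hl hN => ?_
        obtain ⟨e1, e2, ζ, ρ, hρ, e4, e5, e6⟩ := h1 l hlk hk hl hN
        refine ⟨e1, e2, ?_, ζ, ρ, hρ, e4, e5, e6.trans (by linarith)⟩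
        rw [hB.pb_eq O hξ hk, hB.pb_eq O hξ hl, Real.norm_eq_abs]
        have f1 := hP k
        have f2 := hP l
        calc _ ≤ _ := abs_sub _ _
          _ ≤ E + E := add_le_add f1 f2
          _ = 2 * E := by ring) k).2.2
  have h2 := hB.leg_eq O hξ k (t := t)
  show |((th O (k, t) ξ S (posE R m p) (shE R m S p)).comp (fderiv ℝ (posE R m) p)) v| ≤ _
  rw [h2]
  refine (abs_add_le _ _).trans ?_
  have h3 := hP k
  rw [Real.norm_eq_abs] at h1
  have h4 := add_le_add h3 h1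
  refine h4.trans (le_of_eq ?_)
  unfold CL
  ring

end Vale.Agent.P273.H778

end
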